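import Vale.Agent.P144D.I.O.Agree
import Vale.Agent.P144D.I.V.Defs

/-!
The factors of the insertions only depend on the geometry nearby, with a correction.
-/

namespace Vale.Agent.P144Z.IV

open Finset Matrix Geo Mn R6 Vale.Agent.P144Z.IO.Ag

set_option linter.unusedSectionVars false
set_option backward.isDefEq.respectTransparency false

namespace Ag

variable {g g' : Geo} {k : ℕ} {s : Fin k → g.P × Fin 4} {s' : Fin k → g'.P × Fin 4}
  {v : Cor g.M} {v' : Cor g'.M} {m : FMap g g'} {i : Fin k}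

theorem HinV_RI (hg : ∀ κ, (g.src κ).Ok) (hv : v.Ok) (q : Par) (o : ℝ) {O : Fin k → g.Cfg → ℝ}
    {K : ℕ} (hO : LocO s K O) (X : Finset g.P) : g.HinV s q v o O K X ∈ (g.xt s).RI X := by
  have h := HinC_RI hg hv q X
  refine ⟨fun n => Subalgebra.add_mem _ (Subalgebra.add_mem _ (emb_el (h.1 n)) (carI_el _ X))
    (sum_el (fun i e => e ▸ mem_ball.2 (by rw [tdist_self]; omega)) _), fun n n' e => ?_⟩
  rw [HinV, HinV, h.2 n n' e]
  congr 1
  refine sum_congr rfl fun i hi => ?_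
  rw [hO i n n' fun e' h1 h2 => e e' ⟨(mem_filter.1 hi).2 ▸ h1, (mem_filter.1 hi).2 ▸ h2⟩]

theorem initV_el (hg : ∀ κ, (g.src κ).Ok) (hv : v.Ok) (q : Par) (o : ℝ) {O : Fin k → g.Cfg → ℝ}
    {K : ℕ} (hO : LocO s K O) (X : Finset g.P) : (g.initV s q v o O K).K X ∈ (g.xt s).el X :=
  Subalgebra.sub_mem _ (Subalgebra.sub_mem _ (Cl_mem_sub _ (g.xt s).RI (g.xt s).el
    (fun _ _ h _ => RI_mono h) (fun _ _ h _ => el_mono h) (fun _ _ => E0_el _)
    fun Y _ => HinV_RI hg hv q o hO Y) (emb_el (W0C_el hg hv q X))) (carI_el _ X)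

theorem rel_init (h : Mk m s s' i) (hg : ∀ κ, (g.src κ).Ok) (hv : v.Ok) {q : Par}
    (hin : ∀ X, m.In 0 X → ∀ n', g'.HinC q v' (X.image m.φ) n' = m.Φ (g.HinC q v X (n' ∘ m.η)))
    (hW : ∀ X, m.In 0 X → g'.W0C q v' (X.image m.φ) = m.Φ (g.W0C q v X)) (o : ℝ)
    {O : Fin k → g.Cfg → ℝ} {O' : Fin k → g'.Cfg → ℝ} {K : ℕ} (hO : LocO s K O)
    (hO' : ∀ n', O' i n' = O i (n' ∘ m.η))
    (hb : ∀ X, m.In 0 X → (ball (s' i).1 K = X.image m.φ ↔ ball (s i).1 K = X)) :
    h.Rel 0 (g.initV s q v o O K) (g'.initV s' q v' o O' K) where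
  loc := initV_el hg hv q o hO
  K U hU := by
    have h1 := Cl_hom ((g.xt s).E0 (q.x * q.Z)) ((g'.xt s').E0 (q.x * q.Z))
      (LinearMap.pi fun n' => h.lift.Φ ∘ₗ LinearMap.proj (n' ∘ m.η))
      (funext fun _ => h.lift.Φ_one) (fun _ _ => funext fun _ => h.lift.Φ_mul _ _) h.lift.Φ
      h.lift.Φ_one h.lift.Φ_mul m.φ U hU.injOn ((g.xt s).RI U)
      (fun _ hF => E0_map h.lift _ hU hF) (g.HinV s q v o O K) (g'.HinV s' q v' o O' K)
      (fun X hX => RI_mono (g := g.xt s) hX (HinV_RI hg hv q o hO X))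
      fun X hX => funext fun n' => by
        change _ = h.lift.Φ (g.HinV s q v o O K X (n' ∘ m.η))
        rw [HinV, HinV, map_add, map_add, h.emb, hin X (hU.sub hX), h.car (hU.sub hX) rfl]
        exact congrArg _ (h.sum (hU.sub hX)
          (fun j e => by rw [← e]; exact mem_ball.2 (by rw [tdist_self]; omega))
          (hb X (hU.sub hX)) fun _ => by rw [hO'])
    simp only [initV]
    rw [map_sub, map_sub, h.emb, h1, hW U hU, h.car hU rfl]
  z := rfl

end Ag

open Ag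

theorem agreeV {g : Geo} {A' : Gauge g.M} {L T : ℕ} {q : Par} (hL : 8 ≤ L) (hJ : 1 ≤ g.J)
    (hg : g.OkW) (hA' : IsW A') (hq : q.Ok) (hR : 16 * (q.R + 1) ≤ g.M) (hT : 7 * sc L g.J ≤ T)
    (hM : 4 * T + 1 ≤ g.M) {k : ℕ} {s : Fin k → g.P × Fin 4}
    (he : ∀ i, ∃ ε : g.P → ℝ, IsSign ε ∧ ∀ x d, tdist x (s i).1 ≤ T →
      tdist (x + uv g.M d) (s i).1 ≤ T → A' (x, d) = ε x * ε (x + uv g.M d) * g.A (x, d))
    (hfar : ∀ i κ, 7 * sc L g.J < tdist (g.src κ).y (s i).1)
    {u : Fin k → ℕ → g.P × Fin 4 → ℝ} {ν : Fin k → ℕ → ℝ} {c η : ℝ}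
    (hu : (bare g A').MkPre s u ν L c η) :
    ∃ u' : Fin k → ℕ → g.P × Fin 4 → ℝ, g.MkPre s u' ν L c η ∧
      ∀ v : Cor g.M, v.Ok → ∀ (o : ℝ) (O : Fin k → g.Cfg → ℝ) (K : ℕ), LocO s K O →
        (g.flowV s L q v o O K u' g.J).z = ((bare g A').flowV s L q v o O K u g.J).z := by
  have h8 := R6.eight_le_sc (by omega : 1 ≤ L) g.J
  have hm : ∀ i, ∃ m : FMap g (bare g A'),
      W.R6.IdC (g' := bare g A') 0 0 q (s i).1 (s i).1 (6 * sc L g.J) (fun _ => none) m := by
    intro i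
    obtain ⟨ε, hε, h⟩ := he i
    exact (W.R6.exists_trC hg.src (MN.ok_bare hA').src (Cor.ok_zero _) hq.pot (by omega)
      (show _ ≤ g.M by omega) (matchC (by omega) hM hε h) (by omega) (srcs_none _ _ _ _)).imp
      fun _ h => h.1
  choose m hm using hm
  have hφ : ∀ i x, (m i).φ x = x := fun i x => by
    rw [(hm i).id.hφ]
    exact R6.shf_self _ x
  have hπ : ∀ i a, (m i).y.π a = a := fun i a => by
    rw [(hm i).id.hy]
    rfl
  have hd : ∀ i, ∀ n ≤ 6 * sc L g.J, (m i).dep n (s i).1 := fun i n hn =>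
    ((hm i).id.dep _ _).2 (by rw [tdist_self]; omega)
  have hk : ∀ i, Mk (m i) s s i := fun i =>
    ⟨by rw [(hm i).id.hy]; rfl, fun κ => by rw [(hm i).id.hκ], hd i 0 (Nat.zero_le _),
      by rw [hφ, hπ], fun i' hi x hx e => by
        have h1 := hu.sep i' i hi
        have h2 := ((hm i).id.dep _ _).1 hx
        rw [hφ] at e
        rw [← e] at h2
        change 7 * sc L g.J < _ at h1
        omega⟩
  have hs : ∀ i, Function.Surjective (m i).pull := fun i w =>
    ⟨(m i).pull w, funext fun t => by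
      rw [FMap.pull, hφ, hπ, FMap.pull, hφ, hπ, ← mul_assoc, sgn_sq, one_mul]⟩
  refine ⟨fun i j => ((m i).ε (s i).1 * (m i).y.σ (s i).2) • (m i).pull (u i j),
    ⟨hu.sep, hfar, fun i => mkCh_pull (hs i) (by omega) hJ (hd i _ (by omega))
      ((hk i).eq ▸ hu.ch i)⟩, fun v hv o O K hO => funext fun i => ?_⟩
  have hη : ∀ n : g.Cfg, n ∘ (m i).η = n := fun n => funext fun e => by
    rw [Function.comp_apply, FMap.η, hφ, hπ, und_dr]
  have him : ∀ X : Finset g.P, X.image (m i).φ = X := fun X =>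
    (image_congr fun x _ => hφ i x).trans image_id
  have hc : W.R6.IdC (g' := bare g A') v v q (s i).1 (s i).1 (6 * sc L g.J) (fun _ => none)
      (m i) := ⟨(hm i).id, hv, fun X _ n' => by rw [him, hη]⟩
  have hr : ∀ j ≤ g.J, (hk i).Rel (sc L j + 3)
      (g.flowV s L q v o O K
        (fun i j => ((m i).ε (s i).1 * (m i).y.σ (s i).2) • (m i).pull (u i j)) j)
      ((bare g A').flowV s L q v o O K u j) := fun j => by
    induction j with
    | zero =>
      refine fun _ => (rel_init (hk i) hg.src hv (fun X hX n' => ?_) (fun X hX => hc.W0 hX) o hO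
        (fun n' => by rw [hη]) fun X _ => by rw [him]).le (Nat.zero_le _)
      rw [HinC, HinC, map_add, map_smul, (m i).Φ_one, hc.cor X hX, hc.id.ini.hin hc.id.good hX]
    | succ j ih =>
      intro hj
      have h1 := hc.flow (L := L) (by omega) j (by simp)
      have h2 := two_sc_le (by omega : 2 ≤ L) j
      have h3 := sc_mono (by omega : 1 ≤ L) hj
      have h4 := R6.eight_le_sc (by omega : 1 ≤ L) j
      exact ((ih (by omega)).le (n' := sc L (j + 1) + 3) (by omega)).step h1.loc.H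
        (fun X hX => h1.H (by omega) (hX.le (by omega))) (by omega) le_rfl (hd i _ (by omega)) rfl
  exact (hr g.J le_rfl).z.symm

end Vale.Agent.P144Z.IV
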