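import Vale.Agent.P144D.I.V.Defs
import Vale.Agent.P144D.I.O.Gen

/-!
The exact formula for the mixed correlations with insertions and a correction.
-/

namespace Vale.Agent.P144Z.IV

open Finset Matrix Geo Mn Vale.Agent.P144Z.IO Vale.Agent.P144Z.IO.G4

namespace G4V

variable {g : Geo} {k : ℕ} {s : Fin k → g.P × Fin 4}

theorem sum_HV0 (q : Par) (v : Cor g.M) (o : ℝ) (O : Fin k → g.Cfg → ℝ) (K : ℕ) :
    g.emb s (∑ U, g.csC 0 q v 0 U) + ∑ X, g.HI s (g.initC q v).H (g.initV s q v o O K) X =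
      g.emb s (∑ y, (g.init q).v y) +
        ∑ U, Cl ((g.xt s).E0 (q.x * q.Z)) (g.HinV s q v o O K) U := by
  simp only [Geo.HI, StI.Y, Geo.initV, sum_add_distrib, sum_sub_distrib, ← map_sum,
    W.I2.sum_initC, Geo.csC, map_add, map_sub]
  abel

theorem exp_HinV (q : Par) (v : Cor g.M) (o : ℝ) (O : Fin k → g.Cfg → ℝ) (K : ℕ) :
    NormedSpace.exp (∑ X, g.HinV s q v o O K X) = fun n =>
      g.emb s (Real.exp (uint q n + ∑ X, v X n) •
        NormedSpace.exp (∑ κ, (g.src κ).O (g.see (g.src κ).y n) • g.bv κ)) *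
          ∏ i, (1 + (√q.Z * O i n) • g.eI s i) := by
  funext n
  have h0 : ∑ X, g.HinC q v X n = (uint q n + ∑ X, v X n) • (1 : g.E) +
      ∑ κ, (g.src κ).O (g.see (g.src κ).y n) • g.bv κ := by
    simp only [Geo.HinC, sum_add_distrib, I2.sum_Hin, ← sum_smul, add_smul]
    abel
  have h : ∑ X, g.HinV s q v o O K X n =
      g.emb s ((uint q n + ∑ X, v X n) • 1 + ∑ κ, (g.src κ).O (g.see (g.src κ).y n) • g.bv κ) +
        ∑ i, (√q.Z * O i n) • g.eI s i := by
    simp only [Geo.HinV, sum_add_distrib, sum_carI, ← map_sum, h0]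
    rw [sum_fiberwise, add_assoc, ← sum_add_distrib]
    refine congrArg _ (sum_congr rfl fun i _ => ?_)
    rw [← add_smul, ← mul_add, add_sub_cancel]
  rw [I2.exp_pi, Finset.sum_apply, h, I2.exp_add', ← emb_exp, exp_add', exp_smul_one,
    smul_mul_assoc, one_mul, I2.exp_sum_sq _ _ fun i => I2.smul_sq (eI_sq i) _]

/-- The generating function with insertions. -/
theorem genV {L K : ℕ} {q : Par} {v : Cor g.M} {o : ℝ} {O : Fin k → g.Cfg → ℝ}
    {u : Fin k → ℕ → g.P × Fin 4 → ℝ} (hZ : 0 < q.Z) (hc : g.ConvV s L q v o O K u) :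
    ∑ n, (wt 1 q.x n * Real.exp (uint q n + ∑ X, v X n)) •
      (g.emb s (NormedSpace.exp (∑ κ, (g.src κ).O (g.see (g.src κ).y n) • g.bv κ)) *
        g.CI s n fun i => O i n) = (q.Z ^ (2 * g.M ^ 2))⁻¹ •
      (g.emb s (NormedSpace.exp (MN.CC g L q v)) * g.TTV s L q v o O K u) := by
  have h1 := flow_abs (g.xt s) L g.J (fun j => g.emb s (∑ U, g.csC L q v j U))
    (fun j => ∑ X, g.HI s (g.flowC L q v j).H (g.flowV s L q v o O K u j) X)
    (fun j => by rw [emb_noF, map_sum g.noF]; simp only [W.I2.noF_csC]) fun j hj =>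
      (hc.step j hj).symm.trans (congrArg _ (sum_HIs j _ _ _ _ _).symm)
  have h2 := contourI (g.xt s) q.x hZ Sum.inr s
    (fun n => g.emb s (Real.exp (uint q n + ∑ X, v X n) •
      NormedSpace.exp (∑ κ, (g.src κ).O (g.see (g.src κ).y n) • g.bv κ)))
    (fun n => by
      rw [emb_noF, map_smul g.noF, I2.noF_exp]
      simp only [map_sum, map_smul, noF_bv]) O
  have h3 : g.emb s (∑ y, (g.init q).v y) =
      ∑ y, ((q.Z * (q.x - tc)) • (g.xt s).O1 y + (q.Z - 1) • (g.xt s).O2 y) := by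
    simp only [Geo.init, map_sum, map_add, map_smul, emb_O1, emb_O2]
    rfl
  have h4 : NormedSpace.exp (g.emb s (∑ U, g.csC L q v 0 U) +
      ∑ X, g.HI s (g.flowC L q v 0).H (g.flowV s L q v o O K u 0) X) = _ :=
    (congrArg _ (sum_HV0 q v o O K)).trans (I2.exp_add' _ _)
  have h7 := h4.trans (congrArg₂ (· * ·) (congrArg _ h3)
    (hc.init.trans (congrArg _ (exp_HinV q v o O K))))
  have h5 := (h1.symm.trans (congrArg _ h7)).trans h2
  rw [← map_sum, ← emb_exp] at h5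
  have h6 : g.emb s (NormedSpace.exp (MN.CC g L q v)) * g.TTV s L q v o O K u =
      q.Z ^ (2 * g.M ^ 2) • ∑ n, wt 1 q.x n • (g.emb s (Real.exp (uint q n + ∑ X, v X n) •
        NormedSpace.exp (∑ κ, (g.src κ).O (g.see (g.src κ).y n) • g.bv κ)) *
          g.CI s n fun i => O i n) := h5
  rw [h6, smul_smul, inv_mul_cancel₀ (pow_ne_zero _ hZ.ne'), one_smul]
  exact sum_congr rfl fun n _ => by rw [map_smul, smul_mul_assoc, smul_smul]

end G4V

theorem mix_eqV {g : Geo} {k : ℕ} {s : Fin k → g.P × Fin 4} {A' : Gauge g.M} {L K : ℕ} {q : Par}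
    {v : Cor g.M} {o : ℝ} {O : Fin k → g.Cfg → ℝ} {u : Fin k → ℕ → g.P × Fin 4 → ℝ} (hg : g.OkW)
    (hon : ∀ κ, (g.src κ).on = true) (hZ : 0 < q.Z) (hv : v.Ok) (hc : g.ConvV s L q v o O K u)
    (hc0 : (bare g A').ConvC L q v g.J) (hc1 : ∀ κ, (one g A' κ).ConvC L q v g.J)
    (h1 : ∀ κ, ag _ (MN.TT (one g A' κ) L q v) ≠ 0) (top : (g.xt s).E →ₗ[ℝ] ℝ)
    (ht : ∀ (a : g.K → ℝ) (n : g.Cfg) (b : Fin k → ℝ),
      top (g.emb s (NormedSpace.exp (∑ κ, a κ • g.bv κ)) * g.CI s n b) =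
        (∏ κ, a κ) * (∏ i, b i) * (cwI s n * wt g.A 1 n)) :
    g.mixDV s A' q v O = top (NormedSpace.exp
      (g.emb s (MN.WW g A' L q v - ∑ κ, MN.tt g A' L q v κ • g.bv κ)) * g.TTV s L q v o O K u) /
        ag _ (MN.TT (bare g A') L q v) := by
  have _ := hv
  rw [mixDV]
  simp only [fun κ => MN.en_eq hg κ (hon κ) hZ.ne' (hc1 κ) (h1 κ)]
  have h5 : ZwC q v A' 1 = _ := MN.Z_eq (g := bare g A') hZ.ne' hc0
  set a := ag _ (MN.CC (bare g A') L q v) with ha
  set c := fun κ => cf (one g A' κ) () (MN.CC (one g A' κ) L q v) + MN.tt g A' L q v κ with hcc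
  have h1 := congrArg (fun F => top (g.emb s (NormedSpace.exp (-∑ κ, c κ • g.bv κ)) * F))
    (G4V.genV hZ hc)
  have h2 : -∑ κ, c κ • g.bv κ + MN.CC g L q v =
      a • (1 : g.E) + (MN.WW g A' L q v - ∑ κ, MN.tt g A' L q v κ • g.bv κ) := by
    simp only [MN.WW, br, hcc, add_smul, sum_add_distrib]
    abel
  have h3 : ∀ n : g.Cfg, -∑ κ, c κ • g.bv κ + ∑ κ, (g.src κ).O (g.see (g.src κ).y n) • g.bv κ
      = ∑ κ, (g.sgK κ n - c κ) • g.bv κ := by
    intro n
    simp only [sub_smul, sum_sub_distrib, MN.see_en hg _ (hon _)]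
    abel
  simp only [mul_sum, mul_smul_comm, ← mul_assoc, ← emb_mul, ← exp_add', h3, h2,
    map_sum top, map_smul top, ht, smul_eq_mul] at h1
  rw [exp_add', exp_smul_one, smul_mul_assoc, one_mul, map_smul, smul_mul_assoc, map_smul,
    smul_eq_mul, emb_exp] at h1
  have h4 : ZJ q g.A s O (fun n => Real.exp (∑ X, v X n) * ∏ κ, (g.sgK κ n - c κ)) = _ :=
    Eq.trans (sum_congr rfl fun n _ => by
      have := I1.wt_mul g.A 1 q.x n
      rw [mul_one] at this
      rw [this, Real.exp_add]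
      ring) h1
  rw [h4, h5]
  have := pow_ne_zero (2 * g.M ^ 2) hZ.ne'
  have := (Real.exp_pos a).ne'
  field_simp

end Vale.Agent.P144Z.IV
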