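import Vale.Agent.P144D.I.V.Alg
import Vale.Agent.P144D.I.V.Gen
import Vale.Agent.P144D.I.O.Fin

/-!
The final estimate for the mixed correlations with insertions and a correction.
-/

namespace Vale.Agent.P144Z.IV

open Finset Matrix Geo Mn
open Vale.Agent.P144Z.IO
open Vale.Agent.P144Z.IO.F10

section

variable {g : Geo} {k : ℕ} {s : Fin k → g.P × Fin 4} {L K : ℕ} {q : Par} {v : Cor g.M} {o : ℝ}
  {O : Fin k → g.Cfg → ℝ} {u : Fin k → ℕ → g.P × Fin 4 → ℝ} {ν : Fin k → ℕ → ℝ}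
  {Z w a b h K' : ℝ}

theorem dx_TTV (F : g.FlowD L q v Z w a b h) (FI : g.FlowV s L q v o O K u ν w b h)
    (z : Fin k → ℝ) : dx g s Z z (g.TTI s L par0 1 1 K u) = T0I g s L Z z := by
  rw [TTI, T0I, dx_TL, dx_exp, SI]
  congr 2
  simp only [HI, sum_add_distrib]
  rw [← map_sum, FI.flow0, flowC_zero, F.flow0, map_add, dx_emb]
  simp only [map_sum, map_smul, dg_bE, dx_eI, smul_smul, mul_comm Z]

theorem T_closeV (hg : g.OkW) (hv : v.Ok) (hL : 1 ≤ L) (hw : 0 < w) (hh : 0 < h) (hO : LocO s K O)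
    (F : g.FlowD L q v Z w a b h) (FI : g.FlowV s L q v o O K u ν w b h)
    (H : (g.xt s).LastE (sc L g.J) h K') :
    (∀ z : Fin k → ℝ, (∀ i, |z i| ≤ 2) → (g.xt s).ps (w * sc L g.J) univ
      (g.scI s (fun i => w / ν i g.J / √(w * sc L g.J)) (T0I g s L Z z)) ≤
        K' * Real.exp (Fintype.card g.K + k)) ∧
    ((∀ i, |(g.flowV s L q v o O K u g.J).z i| ≤ 2) → (g.xt s).ps (w * sc L g.J) univ
      (g.scI s (fun i => w / ν i g.J / √(w * sc L g.J)) (g.TTV s L q v o O K u) -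
        g.scI s (fun i => w / ν i g.J / √(w * sc L g.J))
          (T0I g s L Z (g.flowV s L q v o O K u g.J).z)) ≤
      K' * Real.exp (Fintype.card g.K + k) * (Real.exp (2 * (b / 2 ^ g.J)) - 1)) := by
  have h8 := eight_le_sc hL g.J
  have hℓ : 1 ≤ sc L g.J := by omega
  have hβ : 0 < w * sc L g.J := by positivity
  have hK := lastE_nonneg hℓ hh H
  have hH : ∀ G, (g.xt s).ps (w * sc L g.J) univ
      (g.scI s (fun i => w / ν i g.J / √(w * sc L g.J)) ((g.xt s).TL (sc L g.J) G)) ≤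
      K' * g.pI s (sc L g.J) h (w * sc L g.J) (fun i => w / ν i g.J) univ G := fun G => by
    rw [scI_TL]
    exact H _ hβ _
  have hB : ∑ κ, (Z * (-2 * tc)) • g.bE κ ∈ g.sub univ :=
    sum_mem fun κ _ => Subalgebra.smul_mem _ (mem_univ_sub (bE_mem κ)) _
  have hS : ∀ z : Fin k → ℝ, (∀ i, |z i| ≤ 2) → g.pI s (sc L g.J) h (w * sc L g.J)
      (fun i => w / ν i g.J) univ (NormedSpace.exp (SI g s Z z)) ≤
        Real.exp (Fintype.card g.K + k) := by
    intro z hz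
    refine (pI_exp hℓ hh hβ (SI_mem Z z) ((pI_add hℓ hh hβ _ _).trans (add_le_add ?_ ?_))).2
    · refine (pI_emb hℓ hh hβ (sub_le_el hB)).trans ((RN.pn_sum hℓ hh hβ _ _).trans
        ((sum_le_card_nsmul _ _ _ fun κ _ => F.size κ).trans ?_))
      rw [card_univ, nsmul_eq_mul, mul_one]
    · refine (pI_sum hℓ hh hβ _ _).trans ((sum_le_card_nsmul _ _ 1 fun i _ => ?_).trans ?_)
      · rw [pI_smul hℓ hh hβ]
        linarith [mul_le_mul (hz i) (FI.size i) (pI_nonneg _) zero_le_two]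
      · rw [card_univ, Fintype.card_fin, nsmul_eq_mul, mul_one]
  refine ⟨fun z hz => (hH _).trans (mul_le_mul_of_nonneg_left (hS z hz) hK), fun hz => ?_⟩
  set t := g.flowV s L q v o O K u g.J with ht
  have wf : g.WfI s t := wf_flowV hg L q hv o hO u g.J
  set S := SI g s Z t.z with hSd
  set X := ∑ X, g.HI s (g.flowC L q v g.J).H t X with hX
  have hXm : ∑ X, (g.flowC L q v g.J).H X - ∑ κ, (Z * (-2 * tc)) • g.bE κ ∈ g.el univ :=
    sub_le_el (sub_mem (sum_mem fun U _ =>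
      mem_univ_sub ((W.Geo.wf_flowC hg hv L q g.J).H_mem U)) hB)
  have e0 : X - S = g.emb s (∑ X, (g.flowC L q v g.J).H X - ∑ κ, (Z * (-2 * tc)) • g.bE κ) +
      ∑ X, t.K X := by
    simp only [hX, hSd, SI, HI, StI.Y, sum_add_distrib, sum_carI, map_sub]
    rw [← map_sum]
    abel
  have hm : X - S ∈ g.elI s univ := by
    rw [e0]
    exact add_mem (emb_elI hXm) (sum_mem fun U _ => elI_mono (subset_univ U) (wf.mem U))
  have h3 : g.pI s (sc L g.J) h (w * sc L g.J) (fun i => w / ν i g.J) univ (X - S) ≤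
      2 * (b / 2 ^ g.J) := by
    rw [e0, two_mul]
    exact (pI_add hℓ hh hβ _ _).trans (add_le_add ((pI_emb hℓ hh hβ hXm).trans F.last) FI.last)
  have h4 := (pI_exp hℓ hh hβ hm h3).1
  have e : g.TTV s L q v o O K u - T0I g s L Z t.z =
      (g.xt s).TL (sc L g.J) (NormedSpace.exp S * (NormedSpace.exp (X - S) - 1)) := by
    rw [mul_sub, ← exp_add', add_sub_cancel, mul_one, sub_eq_add_neg, sub_eq_add_neg, LM.TL_add,
      ← neg_one_smul ℝ (NormedSpace.exp S), LM.TL_smul, neg_one_smul]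
    rfl
  rw [← map_sub, e, mul_assoc]
  refine (hH _).trans (mul_le_mul_of_nonneg_left ((pI_mul hℓ hh hβ _ _).trans ?_) hK)
  exact mul_le_mul (hS t.z hz) h4 (pI_nonneg _) (Real.exp_pos _).le

end

theorem finalV {g : Geo} {k : ℕ} {s : Fin k → g.P × Fin 4} {A' : Gauge g.M} {L K n m : ℕ}
    {q : Par} {v : Cor g.M} {o : ℝ} {O : Fin k → g.Cfg → ℝ} {u : Fin k → ℕ → g.P × Fin 4 → ℝ}
    {ν : Fin k → ℕ → ℝ} {Z w a b h K' σ e₀ e : ℝ} (hg : g.OkW) (hon : ∀ κ, (g.src κ).on = true)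
    (hA' : IsW A') (hne : Zw par0 A' 1 ≠ 0) (hL : 1 ≤ L) (hq : q.Ok) (hv : v.Ok) (hw : 0 < w)
    (hb : 0 ≤ b) (hh : 0 < h) (hO : LocO s K O) (ho : |o| ≤ 1) (hν : ∀ i, 0 < ν i g.J)
    (F : g.FlowD L q v Z w a b h) (FI : g.FlowV s L q v o O K u ν w b h)
    (F0 : (bare g A').FlowD L q v Z w a b h) (F1 : ∀ κ, (one g A' κ).FlowD L q v Z w a b h)
    (H : (g.xt s).LastE (sc L g.J) h K') (H0 : (bare g A').LastB (sc L g.J) h |Zw par0 A' 1|)
    (H1 : ∀ κ, (one g A' κ).LastB (sc L g.J) h |Zw par0 A' 1|)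
    (hW0 : MN.WW g A' L par0 0 = 0)
    (hW : g.ps (w * sc L g.J) univ (MN.WW g A' L q v - (n * σ) • 1) ≤ e₀)
    (hm : Fintype.card g.K = m)
    (he : (8 * m + 1) * (Real.exp 1 * (Real.exp (2 * (b / 2 ^ g.J)) - 1)) + e₀ ≤ e)
    (he1 : e ≤ 1 / 2) :
    (w * sc L g.J) ^ m * (∏ i, w / ν i g.J) * |g.mixDV s A' q v O -
        (∏ i, (g.flowV s L q v o O K u g.J).z i) * Real.exp σ ^ n * Z ^ m * g.mixDJ s A' par0 1| ≤
      Real.exp (n * σ) * Real.exp (4 * m + k) * (10 * e) * (K' / |Zw par0 A' 1|) ∧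
    (w * sc L g.J) ^ m * (∏ i, w / ν i g.J) * |Z ^ m * g.mixDJ s A' par0 1| ≤
      Real.exp (4 * m + k) * (K' / |Zw par0 A' 1|) := by
  subst hm
  obtain ⟨top, ht1, ht2, ht3⟩ := exists_topJ g s
  have h8 := eight_le_sc hL g.J
  have hβ : 0 < w * sc L g.J := by positivity
  have ht := ht3 1 1 _ le_rfl one_pos hβ
  set e₁ := Real.exp 1 * (Real.exp (2 * (b / 2 ^ g.J)) - 1) with he₁
  have hb' : 0 ≤ b / 2 ^ g.J := by positivity
  have a0 : 0 ≤ Real.exp (2 * (b / 2 ^ g.J)) - 1 := sub_nonneg.2 (Real.one_le_exp (by positivity))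
  have a1 : Real.exp (2 * (b / 2 ^ g.J)) - 1 ≤ e₁ :=
    le_mul_of_one_le_left a0 (Real.one_le_exp zero_le_one)
  have a2 : 0 ≤ e₀ := (ps_nonneg _).trans hW
  have a3 : 0 ≤ (8 * Fintype.card g.K : ℝ) * e₁ := by positivity
  have a4 : e₁ ≤ e := by linarith
  have a5 : Real.exp 1 * (Real.exp (b / 2 ^ g.J) - 1) ≤ e₁ := by
    rw [he₁]
    gcongr
    linarith
  have T1 := fun i => MN.tt_close hg hA' hv hL hh hw i (F1 i) hne (H1 i) a5 (a4.trans he1)
  obtain ⟨c2, c1⟩ := T_closeV hg hv hL hw hh hO F FI H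
  have hz : ∀ i, |(g.flowV s L q v o O K u g.J).z i| ≤ 2 := fun i => by
    have h1 := FI.z i
    have h2 := abs_add_le ((g.flowV s L q v o O K u g.J).z i - o) o
    rw [sub_add_cancel] at h2
    linarith
  replace c1 := c1 hz
  have c3 := (RN.abs_aug_le_pn le_rfl one_pos hβ _).trans
    (MN.T_close (MN.ok_bare hA') hv hL hh hw F0 H0 (m := 1) (by simp)).1
  rw [← ag_apply, map_sub, MN.ag_T0, Nat.cast_one] at c3
  have hK := F10.lastE_nonneg (by omega) hh H
  have hy := abs_pos.2 hne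
  have e1 := mix_eqV hg hon (by have := hq.Z_lo; positivity) hv FI.conv F0.conv
    (fun i => (F1 i).conv) (fun i => (T1 i).1) top ht1
  have e2 := mix_eqI hg hon (q := par0) one_pos FI.conv0 F0.conv0 (fun i => (F1 i).conv0)
    (fun i => by rw [MN.ag_TT0 (F1 i)]; exact hne) top ht1
  set V₀ := -∑ i, (Z * MN.tt g A' L par0 0 i) • g.bv i with hV₀
  have e3 : ∀ z : Fin k → ℝ, (∏ i, z i) * (Z ^ Fintype.card g.K * g.mixDJ s A' par0 1) =
      top (NormedSpace.exp (g.emb s V₀) * T0I g s L Z z) / Zw par0 A' 1 := by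
    intro z
    have h1 : top (dx g s Z z _) = _ := ht2 (fun _ => Z) z (NormedSpace.exp
      (g.emb s (-∑ κ, MN.tt g A' L par0 0 κ • g.bv κ)) * g.TTI s L par0 1 1 K u)
    rw [dx_mul, dx_TTV F FI, dx_exp, dx_emb, prod_const, card_univ] at h1
    simp only [map_neg (g.dg _), map_sum (g.dg _), map_smul (g.dg _), dg_bv, smul_smul,
      mul_comm _ Z] at h1
    rw [e2, hW0, MN.ag_TT0 F0, zero_sub, hV₀, h1]
    change _ * (_ * (_ / Zw par0 A' 1)) = _
    ring
  have hE : ∀ G ∈ g.sub univ, (g.xt s).ps (w * sc L g.J) univ (g.emb s G) ≤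
      g.ps (w * sc L g.J) univ G := fun G hG => F10.pn_emb le_rfl one_pos hβ (sub_le_el hG)
  have m0 : V₀ ∈ g.sub univ := neg_mem (MN.bv_sum_mem _)
  have v0 : (g.xt s).ps (w * sc L g.J) univ (g.emb s V₀) ≤ Fintype.card g.K * 3 := by
    refine (hE _ m0).trans ?_
    rw [Geo.ps, hV₀, RN.pn_neg le_rfl one_pos hβ]
    exact MN.ps_bv hg.sign hβ _ fun i => (T1 i).2.2
  have e4 : Real.exp (4 * Fintype.card g.K + k) =
      Real.exp (Fintype.card g.K * 3) * Real.exp (Fintype.card g.K + k) := by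
    rw [← Real.exp_add]; congr 1; ring
  set α : Fin k → ℝ := fun i => w / ν i g.J / √(w * sc L g.J) with hα
  have hs := Real.sqrt_pos.2 hβ
  have e5 : ∀ (V : g.E) (T : (g.xt s).E), top (NormedSpace.exp (g.emb s V) * g.scI s α T) =
      (∏ i, α i) * top (NormedSpace.exp (g.emb s V) * T) := by
    intro V T
    have h1 : top (g.scI s α _) = _ := ht2 1 α (NormedSpace.exp (g.emb s V) * T)
    rw [scI_mul, F10.scI_exp, scI_emb] at h1
    rw [h1]
    simp
  have e6 : ∀ x : ℝ, (w * sc L g.J) ^ Fintype.card g.K * (∏ i, w / ν i g.J) * |x| =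
      (w * sc L g.J) ^ Fintype.card g.K * √(w * sc L g.J) ^ k * |(∏ i, α i) * x| := by
    intro x
    have h1 : 0 ≤ ∏ i, α i := prod_nonneg fun i _ => (div_pos (div_pos hw (hν i)) hs).le
    rw [abs_mul, abs_of_nonneg h1, hα, prod_div_distrib _ fun _ => √(w * sc L g.J), prod_const,
      card_univ, Fintype.card_fin]
    field_simp
  constructor
  · have mV : MN.WW g A' L q v - ∑ i, MN.tt g A' L q v i • g.bv i ∈ g.sub univ :=
      sub_mem (br_mem MN.CC_mem _ _) (MN.bv_sum_mem _)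
    have b2 := MN.ps_bv hg.sign hβ _ fun i => (T1 i).2.1
    have b4 := (RN.pn_sub le_rfl one_pos hβ _ _).trans (add_le_add hW b2)
    have b3 : (g.xt s).ps (w * sc L g.J) univ
        (g.emb s (MN.WW g A' L q v - ∑ i, MN.tt g A' L q v i • g.bv i) - (n * σ) • 1 -
          g.emb s V₀) ≤ e := by
      rw [← emb_one (s := s), ← map_smul, ← map_sub, ← map_sub]
      refine (hE _ (sub_mem (sub_mem mV (Subalgebra.smul_mem _ (one_mem _) _)) m0)).trans
        (le_trans (le_of_eq (congrArg _ ?_)) (b4.trans (by linarith)))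
      simp only [hV₀, sub_smul, sum_sub_distrib]
      abel
    have b5 := MN.top_le hβ top ht (emb_sub mV) (emb_sub m0) (c := n * σ) hne he1
      (c3.trans (mul_le_mul_of_nonneg_left (a5.trans a4) hy.le)) b3 v0
      (K₁ := K' * Real.exp (Fintype.card g.K + k))
      (c1.trans (mul_le_mul_of_nonneg_left (a1.trans a4) (by positivity))) (c2 _ hz)
    rw [e5, e5] at b5
    rw [e6, e1, ← Real.exp_nat_mul, mul_assoc (_ * _), mul_comm (∏ i, _) (Real.exp _),
      mul_assoc (Real.exp _) (∏ i, _), e3, e4]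
    refine le_trans (le_of_eq ?_) (b5.trans (le_of_eq (by ring)))
    congr 2
    ring
  · have b1 := (ht _).trans ((RN.pn_mul le_rfl one_pos hβ _ _).trans (mul_le_mul
      (MN.pn_exp le_rfl one_pos hβ (emb_sub m0) v0).2 (c2 1 fun _ => by norm_num)
      (RN.pn_nonneg _) (Real.exp_pos _).le))
    have h1 := e3 1
    simp only [Pi.one_apply, prod_const_one, one_mul] at h1
    rw [e5] at b1
    rw [e6, h1, ← mul_div_assoc, abs_div, ← mul_div_assoc, ← mul_div_assoc, e4]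
    exact div_le_div_of_nonneg_right (b1.trans (le_of_eq (by ring))) hy.le

end Vale.Agent.P144Z.IV
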