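import Vale.Agent.P144D.I.V.LHalf

/-!
Universality on the lattice: reentrant corners and sign changes.
-/

namespace Vale.Agent.P144Z

open Finset Matrix P144 UL ILat IVL ELat

theorem IVL.arith {Q Qh Qd Qc C₁ L : ℕ} (hQ : 1 ≤ Q) (hQh : 1 ≤ Qh) (hQd : 1 ≤ Qd) (hQc : 1 ≤ Qc)
    (hC : 1 ≤ C₁) (hL : 2 ≤ L) (Λ₀ : ℕ) : ∃ c : ℕ, 1 ≤ c ∧ ∀ J A : ℕ, ∃ r₀, ∀ r ≥ r₀, ∃ ρ J',
      J ≤ J' ∧ C₁ * sc L J' ≤ ρ ∧ A ≤ ρ ∧ r ≤ c * sc L J' ∧ ρ ≤ r / Q / Qh ∧ ρ ≤ r / Q / Qd ∧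
      ρ ≤ r / Qc / 2 / Qc ∧ 2 * ρ ≤ r ∧ ρ ≤ r / Q ∧ r / Q ≤ r ∧ ρ ≤ r / Qc / 2 ∧ Q ≤ r ∧
      (Λ₀ + 1) * r ≤ (Λ₀ + 1) * (2 * Q) * (r / Q) ∧ Λ₀ * r ≤ Λ₀ * (2 * Qc) * (r / Qc) ∧
      2 * ((Λ₀ + 1) * r) ≤ 2 * (Λ₀ + 1) * c * sc L J' ∧
      2 * ((Λ₀ + 1) * r + 2) ≤ (2 * Λ₀ + 6) * (r + 1) := by
  obtain ⟨D, hD⟩ : ∃ D, D = Q * Qh + Q * Qd + Qc * 2 * Qc + 2 := ⟨_, rfl⟩
  have d0 : 0 < D := by omega
  refine ⟨2 * D * (C₁ * L), Nat.mul_pos (by omega) (Nat.mul_pos hC (by omega)), fun J A =>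
    ⟨D * (C₁ * sc L J + A + Qc + 1), fun r hr => ?_⟩⟩
  have f0 : C₁ * sc L J + A + Qc + 1 ≤ r / D := (Nat.le_div_iff_mul_le d0).2 (by rwa [mul_comm])
  have f1 : D ≤ r := le_trans (Nat.le_mul_of_pos_right _ (by omega)) hr
  have f2 : r / D ≤ r / Q / Qh := by
    rw [Nat.div_div_eq_div_mul]
    exact Nat.div_le_div_left (by omega) (by positivity)
  have f3 : r / D ≤ r / Q / Qd := by
    rw [Nat.div_div_eq_div_mul]
    exact Nat.div_le_div_left (by omega) (by positivity)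
  have f4 : r / D ≤ r / Qc / 2 / Qc := by
    rw [Nat.div_div_eq_div_mul, Nat.div_div_eq_div_mul, ← mul_assoc]
    exact Nat.div_le_div_left (by omega) (by positivity)
  have f5 : r / D ≤ r / 2 := Nat.div_le_div_left (by omega) two_pos
  have f6 : r / D ≤ r := Nat.div_le_self _ _
  have fQ : Q ≤ r := le_trans (le_trans (Nat.le_mul_of_pos_right _ hQh) (by omega)) f1
  have g1 := le_mul_div hQ fQ
  have g2 := le_mul_div hQc (by omega : Qc ≤ r)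
  obtain ⟨J', n1, n2, n3⟩ := Mn.exists_scale (c := C₁) (J := J) (M := r / D) hL hC (by omega)
  rw [show sc L (J' + 1) = L * sc L J' by unfold sc; ring, ← mul_assoc] at n3
  have e4 : r ≤ 2 * D * (C₁ * L) * sc L J' := by
    rw [mul_assoc]
    exact (le_mul_div d0 f1).trans (Nat.mul_le_mul_left _ n3)
  refine ⟨r / D, J', n1, n2, by omega, e4, f2, f3, f4, by omega, f2.trans (Nat.div_le_self _ _),
    Nat.div_le_self _ _, f4.trans (Nat.div_le_self _ _), fQ, ?_, ?_, ?_, by nlinarith⟩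
  · rw [mul_assoc]
    exact Nat.mul_le_mul_left _ g1
  · rw [mul_assoc]
    exact Nat.mul_le_mul_left _ g2
  · rw [mul_assoc _ _ (sc L J'), mul_assoc 2]
    exact Nat.mul_le_mul_left _ (Nat.mul_le_mul_left _ e4)

theorem IVL.endg {r l c ε z v v₀ : ℝ} (hl : 0 < l) (hr : 0 < r) (hc : 1 ≤ c) (h : r ≤ c * l)
    {n m : ℕ} (key : |l ^ ((n : ℝ) / 8) * l ^ m * v - z * (l ^ ((n : ℝ) / 8) * l ^ m * v₀)| ≤
      ε / c ^ (n + m)) : |v - z * v₀| ≤ ε * r ^ (-((n : ℝ) / 8)) / r ^ m := by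
  have rs := rescale hl hr hc h n m
  have w0 : 0 < l ^ ((n : ℝ) / 8) * l ^ m := by positivity
  generalize l ^ ((n : ℝ) / 8) * l ^ m = w at key rs w0
  have e : v - z * v₀ = w⁻¹ * (w * v - z * (w * v₀)) := by field_simp
  rw [e, abs_mul, abs_of_pos (inv_pos.2 w0)]
  refine (mul_le_mul rs key (abs_nonneg _) (by positivity)).trans (le_of_eq ?_)
  field_simp

theorem latStmtJW_of (hMk : MkStmt) (hLB : LBStmt) (hMark : MarkStmt) (hA : SecA) (hS : SecW)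
    (hT : TiltP) (hBc : DigBc) (hDp : DeepD) (hB : BdStmtW) (hG : GapW) (hO : HolesW)
    (hD : DigStmt) : LatStmtJW := by
  obtain ⟨c', hc', Cm, hMk⟩ := hMk
  refine ⟨c', hc', fun η₁ hη₁ α hα => ?_⟩
  obtain ⟨t, N, Q, ht, hQ, κ₀, hκ₀, hD⟩ := hD α hα
  obtain ⟨Qb, hB⟩ := hB α hα N
  obtain ⟨Qc, hQc, κc, hκc, hBc⟩ := hBc α hα t
  obtain ⟨Cd, Qd, hQd, κd, hκd, hDp⟩ := hDp α hα t N
  obtain ⟨ηL, hηL, CL, LL, hLB⟩ := hLB Cd c' hc'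
  have η0 : 0 < min η₁ ηL := by positivity
  obtain ⟨Lm, hMk⟩ := hMk _ η0
  refine ⟨t + 1, fun ε₀ hε₀ => ?_⟩
  obtain ⟨LB, hB⟩ := hB ε₀ hε₀
  refine ⟨2 + LB + Lm + LL, fun L hL => ?_⟩
  have hL2 : 2 ≤ L := by omega
  obtain ⟨κB, hκB, hB⟩ := hB L (by omega)
  obtain ⟨κm, hκm, hMk⟩ := hMk L (by omega)
  obtain ⟨κL, hκL, hLB⟩ := hLB L (by omega)
  obtain ⟨κ, k0, k1, k2, k3, k4, k5, k6⟩ : ∃ κ > (0 : ℝ), κ ≤ κB ∧ κ ≤ κm ∧ κ ≤ κL ∧ κ ≤ κ₀ ∧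
      κ ≤ κc ∧ κ ≤ κd := ⟨min (min (min κB κm) κL) (min (min κ₀ κc) κd), by positivity, by simp,
    by simp, by simp, by simp, by simp, by simp⟩
  refine ⟨κ, k0, fun q Zσ Zε Zσ' Zε' R₁ hq hsm hR hV hU hU0 J lam β hJ hμ hx α' κ' hκ0 hκ hα'
    n m Λ₀ ε hε => ?_⟩
  have rq : Rel J lam β q := ⟨hq.pot, hq.range, hμ, hx⟩
  have r0 : Rel J 0 (Kc / J) (parR (t + 1)) := ⟨U1.pot_zero, fun _ h => absurd rfl h,
    (mul_zero _).symm, by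
      rw [mul_assoc, div_mul_cancel₀ _ hJ.ne']
      exact U4.tc_eq⟩
  obtain ⟨K, hMark⟩ := hMark α' (by linarith) (2 * q.R + 4)
  obtain ⟨k₀, hMark⟩ := hMark (Λ₀ * (2 * Qc))
  obtain ⟨H₀, Qh, hQh, hO⟩ := hO N ((Λ₀ + 1) * (2 * Q))
  obtain ⟨c, c0, hc⟩ := arith (C₁ := Qb + Cm + CL + 18) hQ hQh hQd hQc (by omega) hL2 Λ₀
  have cL : (1 : ℝ) ≤ c := by exact_mod_cast c0
  obtain ⟨Λ₁, hΛ₁⟩ : ∃ Λ₁, Λ₁ = 2 * (Λ₀ + 1) * c := ⟨_, rfl⟩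
  obtain ⟨N', hN'⟩ : ∃ N', N' = n + H₀ + 1 + m + k₀ + (2 * Λ₀ + 6 + 1) ^ 2 + Λ₁ := ⟨_, rfl⟩
  obtain ⟨Γ, hΓ, r₀, hG⟩ := gapOf hG N Λ₁
  obtain ⟨τ₁, hτ₁, B₁, h1⟩ := half (R := q.R) hL2 hS hT hU K le_rfl ht (by omega) hV hq.x_lo
    hq.x_hi hsm rq n m N' Λ₁ hΓ
  obtain ⟨τ₀, hτ₀, B₀, h0⟩ := half (R := q.R) (R₁ := 0) hL2 hS hT hU0 K
    (show t + 1 ≤ q.R by omega) ht le_rfl (fun _ h => absurd rfl h)
    (le_trans (by norm_num) FM.tc_lo) C.tc_le (by simp [Par.Small, parR]) r0 n m N' Λ₁ hΓ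
  obtain ⟨c₀, hc₀, JL, hLB⟩ := hLB N'
  obtain ⟨δ, hδ, hfin⟩ := fin' m B₀ (Zσ ^ n) Zε (Zσ' ^ n) Zε' hc₀ (τ := min (min τ₁ τ₀) 1)
    (ε := ε / (c : ℝ) ^ (n + m)) (by positivity) (min_le_right _ _) (by positivity)
  obtain ⟨J₁, h1⟩ := h1 δ hδ
  obtain ⟨J₀, h0⟩ := h0 δ hδ
  obtain ⟨r₁, hc⟩ := hc (J₀ + J₁ + JL + r₀ + 1) (8 * K + 4 * t + Qc + Qd + Qh + 1)
  refine ⟨r₁, fun r hr Λ P b x y j hR' hb hΛ hs => ?_⟩
  obtain ⟨ρ, J', n1, n2, f0, e4, f2, f3, f4, f5, f6, f7, f8, fQ, e6, e8, e5, e7⟩ := hc r hr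
  rw [add_mul, add_mul, add_mul] at n2
  rw [← hΛ₁] at e5
  have s9 := sc_ge (J := J') hL2
  have e1 : (Λ₀ + 1) * r = Λ₀ * r + r := by ring
  have e9 : Λ₁ * sc L J' ≤ N' * sc L J' := Nat.mul_le_mul_right _ (by omega)
  set T := (Λ₀ + 1) * r with hT'
  have hΛ' : ∀ v ∈ Λ, zd v 0 ≤ T := fun v hv => (hΛ v hv).trans (by omega)
  have : NeZero (64 * (2 * T)) := ⟨by omega⟩
  set M := 64 * (2 * T) with hMd
  obtain ⟨p1, sW⟩ := hD κ k0 k4 Λ P r T hR' fQ hΛ'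
  have sW' := (sW M (by omega)).mono k1 le_rfl
  obtain ⟨H, hH, a, hs', g4, gc⟩ := hO (dig Λ P t) T (r / Q) M sW'.toRgh (by omega) (by omega) e6
    (fun v hv => hΛ' v (mem_dig.1 hv).1) (by omega)
  replace g4 := holes_mono g4 f2
  obtain ⟨⟨b₁, b1, b2, b3⟩, b4⟩ := hBc κ k0 k5 α' κ' hκ0 hκ Λ P b r hR' hb (by omega)
  obtain ⟨k, hk, p, e, b', mg, mb⟩ := hMark κ' hκ0 hα' (r / Qc) (by omega) _ b₁ b2
    fun v hv => (hΛ v (mem_dig.1 hv).1).trans e8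
  have mg' : MkG (dig Λ P t) κ ρ p e := mg.mono hκ (by omega)
  choose u ν hch using fun i => hMk M _ _ J' _ _ (((mg'.mk1 i).mono k2 le_rfl).mkT' g4.box
    (by omega)) (by omega) (by omega) (by omega)
  obtain ⟨⟨ε', ς, κ₁, hε', hς, hκ₁, sel⟩, n₀, q1, q2, q3⟩ := hA M _ _ _ H k a hs' p e b' g4 gc
    mg.injective (fun i => ⟨(mg.mk1 i).touch, (mg.mk1 i).rem⟩) mb.wall (by omega)
  have κ1 : κ₁ ≠ 0 := fun h => by
    rw [h, abs_zero] at hκ₁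
    exact (pow_pos two_pos H).ne hκ₁
  have G : GD (QW L ε₀) L J' Λ₁ Γ c' η₁ M (dig Λ P t) (2 * T) ρ a hs' (mkS M p e) u ν :=
    ⟨g4, mg'.mkDat g4.box (by omega) (by omega) fun i => (hch i).mono η0.le (min_le_left _ _),
      by omega, by omega, e5, rfl, fun B h => hB M (regOf M (dig Λ P t) false) _ B (ρ - 1) J'
        (sW'.mono le_rfl (by omega)) h (by omega) (by omega) (by omega),
      hG M _ _ ρ _ (sW'.toRgh.mono (by omega)) g4.box (by omega) (by omega) (by omega) (by omega)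
        e5 rfl⟩
  have hsp := spins_dig (r' := ρ) hs (fun p hp => (p1 p hp).2) (by omega)
  have p4 := B5a2.card_net (fun p hp => (p1 p hp).1) hR'.sep e7
  have w := fun {S : Prop} (h : (∀ v ∈ Λ, zd v 0 ≤ 2 * T) → (∀ z ∈ P, zd z 0 ≤ 2 * T) →
      MkG (dig Λ P t) κ ρ p e → MkB (dig Λ P t) b₁ b' (2 * q.R + 4) K p e →
      (∀ v, v ∉ Λ → b₁ v = b v) → (∀ z ∈ P, ∀ z' ∈ P, z ≠ z' → ρ < zd z z') →
      (∀ z ∈ P, ∀ v, zd v z ≤ ρ → v ∉ dig Λ P t → b₁ v = b₁ z) → (∀ z ∈ P, ∀ i, ρ < zd (p i) z) →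
      Spins (dig Λ P t) ρ (Sum.elim x y) → S) => h (fun v hv => (hΛ' v hv).trans (by omega))
    (fun z hz => (p1 z hz).1.trans (by omega)) mg' mb b1
    (fun z hz z' hz' h => lt_of_le_of_lt (by omega) (hR'.sep z hz z' hz' h))
    (fun z hz v hv => b3 z hz v (by omega))
    (fun z hz i => f4.trans_lt (b4 z hz _ _ _ (by omega) (by omega) (mg.mk1 i))) hsp
  obtain ⟨f₀, f₁, ζ, ζ₁, a1, -, a3, a4, a5, -, a7⟩ := w (h1 J' (by omega) M Λ P _ ρ H k a hs' p e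
    u ν ε' ς κ₁ κ b b₁ b' x y j G (by omega) (by omega) hε' hς κ1 sel)
  obtain ⟨u₀, u₁, ζ₂, ζ₃, c1, c2, c3, c4, c5, c6, c7⟩ := w (h0 J' (by omega) M Λ P _ ρ H k a hs'
    p e u ν ε' ς κ₁ κ b b₁ b' x y j G (by omega) (by omega) hε' hς κ1 sel)
  change _ = _ * lcor (gibbs J 0 (fun _ => 0) _ _ _) _ _ _ at c1
  set I := (dig Λ P t).image (prj M) with hI
  have eR : ∀ {n'} (x' : Fin n' → Site), fS I a hs' (mkS M p e) ε' ς y j (sc L J') (∏ i, ν i J')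
      (parR (t + 1)) 1 x' = fS I a hs' (mkS M p e) ε' ς y j (sc L J') (∏ i, ν i J') par0 1 x' :=
    fun x' => funext fun s => by rw [fS, fS, mxJ_parR]
  rw [eR, eR] at c5
  rw [eR] at c7
  set ℓ : ℝ := ((sc L J' : ℕ) : ℝ) with hℓ
  have l0 : 0 < ℓ := by rw [hℓ]; exact_mod_cast (by omega : 0 < sc L J')
  have ν0 : 0 < ∏ i, ν i J' := prod_pos fun i _ => (hch i).nu_pos le_rfl
  have lb : c₀ ≤ |fS I a hs' (mkS M p e) ε' ς y j ℓ (∏ i, ν i J') par0 1 Fin.elim0 ∅| := by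
    have t1 := hLB J' (by omega) M _ _ ρ H k a hs' p e u ν n₀ ((hDp κ k0 k6 Λ P r (r / Q) T hR'
      hΛ' (fun M _ h => (sW M h).toRgh) f7 (by omega)).mono f3)
      g4.box (not_mem_image g4.box (by omega) g4.a_le (g4.a_out a (by simp [zd_self])))
      (fun i => not_mem_image g4.box (by omega) (g4.h_le i) (g4.h_out i _ (by simp [zd_self]))) gc
      (by omega) (by omega) (mg'.mono k3 le_rfl) (by omega) (by omega) (by omega) le_rfl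
      (fun i => (hch i).mono η0.le (min_le_right _ _)) q1 q2
    have t2 : sB par0 I b' (1 : Fin k → _) 1 = Yn I (tc • pwI I) n₀ := by
      simpa only [sB, Pi.one_apply, one_mul] using q3
    have t4 : 0 < Zw par0 (pwI I) 1 := DH1.Zw_plus_pos g4.box (by omega) H2D.tc_pos
    have t5 : (1 : ℝ) ≤ 2 ^ H := one_le_pow₀ one_le_two
    rw [fS_empty (y := y) (j := j) sel (fun i => mem_image_of_mem _ (hsp.ins (Sum.inr i) _
      ((zd_add_dir _ _).trans (by omega)))) ν0, t2, hκ₁, abs_of_pos t4, div_mul_eq_mul_div,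
      le_div_iff₀ (by positivity), ← mul_assoc]
    exact (t1.trans (le_abs_self _)).trans (le_mul_of_one_le_left (abs_nonneg _) t5)
  have τ1 : min (min τ₁ τ₀) 1 ≤ τ₁ := (min_le_left _ _).trans (min_le_left _ _)
  have τ0 : min (min τ₁ τ₀) 1 ≤ τ₀ := (min_le_left _ _).trans (min_le_right _ _)
  have key := hfin _ _ _ _ _ _ _ _ _ _ _ _ a4 a5 c4 c5 (τ1.trans a3) (τ0.trans c3) c2 lb c6
    ((mul_le_mul_of_nonneg_right τ1 (abs_nonneg _)).trans a7)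
    ((mul_le_mul_of_nonneg_right τ0 (abs_nonneg _)).trans c7)
  rw [a1, c1] at key
  exact endg l0 (by exact_mod_cast (by omega : 0 < r)) cL (by rw [hℓ]; exact_mod_cast e4) key

end Vale.Agent.P144Z
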