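import Vale.Agent.P144D.I.V.DefsL
import Vale.Agent.P144E.Sp.Main

/-!
The Gibbs measure with a sign-changing boundary condition in terms of the contours of the dug set.
-/

namespace Vale.Agent.P144Z

open Finset SpA

namespace SpV

/-- The spins in `D` are those of `c`. -/
def upc {X : Type} (c : X → Bool) (D : Finset X) (σ : X → Bool) : ℝ :=
  if ∀ u ∈ D, σ u = c u then 1 else 0

theorem up_eq {X : Type} [DecidableEq X] {c : X → Bool} {A : Finset X}
    (hA : ∀ u, decide (u ∈ A) = !c u) (D : Finset X) (σ : X → Bool) :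
    up D σ = upc c D (flp A σ) := by
  refine if_congr (forall₂_congr fun u _ => ?_) rfl rfl
  show σ u = true ↔ xor (σ u) (decide (u ∈ A)) = c u
  rw [hA]
  cases σ u <;> cases c u <;> simp

theorem sum_avg' {X ι : Type} [DecidableEq X] [Fintype X] (c : X → Bool) (D : ι → Finset X)
    (g : ι → (X → Bool) → ℝ) (P : Finset ι)
    (hd : ∀ p ∈ P, ∀ p' ∈ P, p ≠ p' → Disjoint (D p) (D p') ∧ Inv (D p') (g p))
    (W : (X → Bool) → ℝ) (hW : ∀ p ∈ P, Inv (D p) W) :
    ∑ σ, W σ * ∏ p ∈ P, g p σ =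
      ∑ σ, W σ * ∏ p ∈ P, upc c (D p) σ * ∑ T ∈ (D p).powerset, g p (flp T σ) := by
  obtain ⟨A, hA⟩ : ∃ A : Finset X, ∀ u, decide (u ∈ A) = !c u :=
    ⟨univ.filter fun u => c u = false, fun u => by cases h : c u <;> simp [h]⟩
  have hi : ∀ (E : Finset X) (f : (X → Bool) → ℝ), Inv E f → Inv E fun σ => f (flp A σ) :=
    fun E f h σ σ' hσ => h _ _ fun u hu => by simp only [flp, hσ u hu]
  have h := sum_avg D (fun p σ => g p (flp A σ)) P
    (fun p hp p' hp' hne => ⟨(hd p hp p' hp' hne).1, hi _ _ (hd p hp p' hp' hne).2⟩)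
    (fun σ => W (flp A σ)) fun p hp => hi _ _ (hW p hp)
  rw [← Equiv.sum_comp (Function.Involutive.toPerm (flp A) (flp_flp A)), ← Equiv.sum_comp
    (Function.Involutive.toPerm (flp A) (flp_flp A)) fun σ => W σ * ∏ p ∈ P, _ * _]
  refine h.trans (sum_congr rfl fun σ _ => congrArg _ (prod_congr rfl fun p _ => ?_))
  exact congrArg₂ (· * ·) (up_eq hA _ σ)
    (sum_congr rfl fun T _ => congrArg _ (funext fun u => Bool.xor_right_comm _ _ _))

variable {M : ℕ} [NeZero M] {q : Par} {R₁ t : ℕ} {κ : ℝ} {P : Finset (ℤ × ℤ)}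
  {D : ℤ × ℤ → Finset (Tor M)} {I I' : Finset (Tor M)}

open Classical in
theorem sum_split (hV : P144.IsPotential q.V)
    (hR : ∀ B, q.V B ≠ 0 → (0, 0) ∈ B → B ∈ potSets R₁) (hx : q.x = Real.exp (-κ))
    (hD : Sep (R₁ + 1) P D) (hI : ∀ u, u ∈ I' ↔ u ∈ I ∧ ∀ p ∈ P, u ∉ D p)
    (hDI : ∀ p, D p ⊆ I) (b : ℤ × ℤ → Bool) (G : (Tor M → Bool) → ℝ)
    (hG : ∀ p ∈ P, Inv (D p) G) :
    ∑ s, (if OutB I b s then G s * DH1.wT q s else 0) = ∑ σ, if OutB I' b σ then
      G σ * (∏ p ∈ P, obP q κ (D p) (dom σ)) * DH1.wT q σ else 0 := by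
  have hw : ∀ σ : Tor M → Bool, DH1.wT q σ = Real.exp (enW q κ (av P D) (dom σ)) *
      ∏ p ∈ P, Real.exp (enW q κ (mt (D p)) (dom σ)) := fun σ => by
    rw [wT_eq hx, ← Real.exp_sum, ← Real.exp_add]
    exact congrArg Real.exp (enW_split hV hR P (fun S hS => hD.split hS) _)
  have h := sum_avg' (fun u => b (lft u)) D (fun p σ => Real.exp (enW q κ (mt (D p)) (dom σ))) P
    (fun p hp p' hp' hne => ⟨hD.disj hp hp' hne, fun σ σ' h => congrArg Real.exp
      (enW_dom hV (fun S hS h0 u hu => h u (hD.out hS hp hp' hne h0 hu)) hR)⟩)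
    (fun σ => (if OutB I b σ then 1 else 0) * G σ *
      Real.exp (enW q κ (av P D) (dom σ))) fun p hp σ σ' h => ?_
  · refine Eq.trans (sum_congr rfl fun σ _ => ?_) (h.trans (sum_congr rfl fun σ _ => ?_))
    · rw [hw]
      split_ifs <;> ring
    · by_cases h1 : OutB I' b σ
      · have h2 : ∀ p ∈ P, ∑ T ∈ (D p).powerset, Real.exp (enW q κ (mt (D p)) (dom (flp T σ))) =
            obP q κ (D p) (dom σ) * Real.exp (enW q κ (mt (D p)) (dom σ)) := fun p hp => by
          rw [obP, sum_mul]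
          refine sum_congr rfl fun U _ => ?_
          rw [dom_flp, ← Real.exp_add, sub_add_cancel]
        rw [if_pos h1, if_pos (show OutB I _ σ from fun u hu => h1 u fun h => hu ((hI u).1 h).1),
          prod_congr rfl fun p hp => by
            rw [upc, if_pos fun u hu => h1 u fun h => ((hI u).1 h).2 p hp hu, one_mul, h2 p hp],
          prod_mul_distrib, hw]
        ring
      · rw [if_neg h1]
        simp only [OutB, not_forall] at h1
        obtain ⟨u, h2, h3⟩ := h1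
        by_cases h4 : u ∈ I
        · rw [hI, not_and] at h2
          have h5 := h2 h4
          simp only [not_forall, not_not] at h5
          obtain ⟨p, hp, h5⟩ := h5
          refine mul_eq_zero_of_right _ (prod_eq_zero hp ?_)
          rw [upc, if_neg fun h => h3 (h u h5), zero_mul]
        · rw [if_neg fun h => h3 (h u h4), zero_mul, zero_mul, zero_mul]
  · refine congrArg₂ (· * ·) (congrArg₂ (· * ·) (if_congr (forall₂_congr fun u hu => ?_) rfl rfl)
      (hG p hp σ σ' h)) (congrArg Real.exp (enW_dom hV (fun S _ h0 u hu => h u ?_) hR))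
    · rw [h u fun h' => hu (hDI p h')]
    · exact disjoint_left.1 (by_contra fun h' => h0 (if_neg fun h'' => h' (h'' p hp))) hu

theorem obP_loc (hV : P144.IsPotential q.V)
    (hR : ∀ B, q.V B ≠ 0 → (0, 0) ∈ B → B ∈ potSets R₁) :
    LocE P (t + R₁ + 2) fun p => obP q κ (hol I t p) := by
  refine fun p _ n n' h => sum_congr rfl fun U _ => ?_
  rw [enW_loc hV hR (fun _ => mt_hol) h, enW_loc hV hR (fun _ => mt_hol)
    (n := fun e => xor (n e) _) (n' := fun e => xor (n' e) (dom (fun u => decide (u ∈ U)) e))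
    fun e h1 h3 => by rw [h e h1 h3]]

theorem obP_bd (hV : P144.IsPotential q.V)
    (hR : ∀ B, q.V B ≠ 0 → (0, 0) ∈ B → B ∈ potSets R₁) (hs : q.Small 1) (h0 : 0 ≤ κ)
    (h2 : κ ≤ 2) {A : ℝ} (hA : 5 * (2 * (t + R₁ + 1 : ℕ) + 1) ^ 2 ≤ A) (p : ℤ × ℤ)
    (n : Tor M × Fin 2 → Bool) : Real.exp (-(2 * A)) ≤ obP q κ (hol I t p) n ∧
      obP q κ (hol I t p) n ≤ 2 ^ ((2 * t + 1) ^ 2) * Real.exp (2 * A) := by
  have hb : ∀ n, |enW q κ (mt (hol I t p)) n| ≤ A := fun n =>
    (abs_enW hV hR hs h0 h2 (abs_mt _) (fun _ => mt_hol) n).trans hA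
  constructor
  · refine le_trans (Real.exp_le_exp.2 ?_) (single_le_sum (fun _ _ => (Real.exp_pos _).le)
      (empty_mem_powerset _))
    linarith [abs_le.1 (hb n), abs_le.1 (hb fun e => xor (n e)
      (dom (fun u => decide (u ∈ (∅ : Finset (Tor M)))) e))]
  · refine (sum_le_card_nsmul _ _ (Real.exp (2 * A)) fun U _ => Real.exp_le_exp.2 ?_).trans ?_
    · linarith [abs_le.1 (hb n), abs_le.1 (hb fun e => xor (n e)
        (dom (fun u => decide (u ∈ U)) e))]
    · rw [nsmul_eq_mul, card_powerset]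
      refine mul_le_mul_of_nonneg_right ?_ (Real.exp_pos _).le
      exact_mod_cast Nat.pow_le_pow_right two_pos (card_hol I t p)

theorem kappa {x κ : ℝ} (hx : x = Real.exp (-κ)) (h4 : 1 / 4 ≤ x) (h2 : x ≤ 1 / 2) :
    0 ≤ κ ∧ κ ≤ 2 := by
  constructor
  · have : Real.exp (-κ) ≤ Real.exp 0 := by rw [← hx, Real.exp_zero]; linarith
    have := Real.exp_le_exp.1 this
    linarith
  · have h1 : Real.exp (-2) ≤ Real.exp (-κ) := by
      rw [← hx, Real.exp_neg]
      refine le_trans ?_ h4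
      rw [one_div]
      refine inv_anti₀ (by norm_num) ?_
      have h5 := Real.add_one_le_exp (1 : ℝ)
      rw [show (2 : ℝ) = 1 + 1 by norm_num, Real.exp_add]
      nlinarith
    have := Real.exp_le_exp.1 h1
    linarith

theorem zd_lft_le {p : ℤ × ℤ} {u : Tor M} {T ρ : ℕ} (hp : zd p 0 ≤ T) (hu : tdist u (prj M p) ≤ ρ)
    (hM : 2 * (2 * T + ρ) < M) : zd (lft u) p ≤ ρ := by
  have h1 := tdist_triangle u (prj M p) 0
  have h2 := H3.tdist_prj_zero (M := M) p
  have h3 := GeoA.zd_tri (lft u) 0 p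
  have h4 : zd (lft u) 0 = tdist u 0 := by rw [← GeoA.zd_lft, sub_zero]
  rw [GeoA.zd_comm 0] at h3
  rwa [← ISecB.tdist_eq (M := M) (by omega), prj_lft]

end SpV

open SpV in
/-- The Gibbs measure with boundary condition `b` in terms of the contours of the dug set. -/
theorem secW : SecW := by
  classical
  intro R K t
  obtain ⟨K₁, C₁, hC₁, hB⟩ := secB R K
  obtain ⟨A, hA⟩ : ∃ A : ℝ, A = 5 * (2 * (t + R + 1 : ℕ) + 1) ^ 2 := ⟨_, rfl⟩
  have hA0 : 0 ≤ A := by rw [hA]; positivity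
  obtain ⟨C₂, hC₂⟩ : ∃ C₂ : ℝ, C₂ = 2 ^ ((2 * t + 1) ^ 2) * Real.exp (2 * A) := ⟨_, rfl⟩
  have hC2 : Real.exp (2 * A) ≤ C₂ :=
    hC₂ ▸ le_mul_of_one_le_left (Real.exp_pos _).le (one_le_pow₀ one_le_two)
  have hC3 : C₂⁻¹ ≤ Real.exp (-(2 * A)) := by
    rw [Real.exp_neg]
    exact inv_anti₀ (Real.exp_pos _) hC2
  have hC4 : 1 ≤ C₂ := (Real.one_le_exp (by positivity)).trans hC2
  refine ⟨K₁ + K + t + R + 3, max C₁ C₂, le_max_of_le_left hC₁, ?_⟩
  intro J lam β q R₁ hq hqR hR₁ hR h4 h2 hs M _ Λ P T k x e b b₁ b' hΛ hP hM ht hsx hb hb₁ hsep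
    hcst hxp
  have hx := hq.x
  have hx0 : 0 < q.x := hx ▸ Real.exp_pos _
  obtain ⟨hκ0, hκ2⟩ := kappa hx h4 h2
  generalize 2 * β * J = κ at hx hκ0 hκ2
  have hd : ∀ v ∈ dig Λ P t, zd v 0 ≤ T := fun v hv => hΛ v (mem_dig.1 hv).1
  obtain ⟨O, hO1, hO2, hO3⟩ := hB J lam β q hq hqR h4 h2 hs M (dig Λ P t) T k x e b₁ b' hd
    (by omega) ht (fun i i' h => by have := hsx i i' h; omega) hb
  have hI := fun u : Tor M => mem_dig_im (M := M) hd hP (by omega) (u := u)
  have hD := sep_hol (M := M) (t := t) (K := R₁ + 1) hP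
    (fun p hp p' hp' hne => by have := hsep p hp p' hp' hne; omega) (by omega) (Λ.image (prj M))
  set I := Λ.image (prj M) with hIdef
  set I' := (dig Λ P t).image (prj M) with hI'
  have hl : LocE P (t + R₁ + 2) fun p => obP q κ (hol I t p) := obP_loc hq.pot hR
  have hbd := obP_bd (I := I) (t := t) hq.pot hR hs hκ0 hκ2 (A := A) (by
    rw [hA]
    gcongr)
  refine ⟨O, fun p => obP q κ (hol I t p), fun i n n' h => hO1 i n n' fun e' h1 h3 => h e'
    (G.mem_ball.2 ((G.mem_ball.1 h1).trans (by omega)))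
    (G.mem_ball.2 ((G.mem_ball.1 h3).trans (by omega))), fun i n =>
    ⟨(inv_anti₀ (by linarith) (le_max_left _ _)).trans (hO2 i n).1,
      (hO2 i n).2.trans (le_max_left _ _)⟩, hl, fun p n =>
    ⟨(inv_anti₀ (by linarith) (le_max_right _ _)).trans (hC3.trans (hbd p n).1),
      (hbd p n).2.trans (hC₂ ▸ le_max_right _ _)⟩, fun F hF => ?_⟩
  obtain ⟨E, hE⟩ : ∃ E : P144.Config → ℝ, E = fun c => ∏ p ∈ P, obP q κ (hol I t p)
    (dom fun u => if u ∈ I' then c (lft u) else b₁ (lft u)) := ⟨_, rfl⟩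
  have hE0 : ∀ σ σ', (∀ v ∈ dig Λ P t, σ v = σ' v) → E σ = E σ' := fun σ σ' h => by
    rw [hE]
    refine prod_congr rfl fun p _ => congrArg _ (congrArg _ (funext fun u => ?_))
    split_ifs with hu
    · obtain ⟨v, hv, rfl⟩ := mem_image.1 hu
      have h1 := DH1.zd_le_iff.1 (hd v hv)
      rw [lft_prj (by omega) (by omega), h v hv]
    · rfl
  have hE1 : ∀ σ, OutB I' b₁ σ → E (per M σ) = ∏ p ∈ P, obP q κ (hol I t p) (dom σ) :=
    fun σ h => by
      rw [hE]
      refine prod_congr rfl fun p _ => congrArg _ (congrArg _ (funext fun u => ?_))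
      split_ifs with hu
      · rw [I1.per_eq, prj_lft]
      · exact (h u hu).symm
  have hE2 : ∀ σ, OutB I' b' σ → E (per M σ) = ∏ p ∈ P, obP q κ (hol I t p) (nOf I' σ) := by
    intro σ h
    rw [hE]
    refine prod_congr rfl fun p hp => hl p hp _ _ fun e' he _ => ?_
    have key : ∀ u, tdist u (prj M p) ≤ t + R₁ + 3 → u ∉ I' →
        σ u = b₁ p ∧ b₁ (lft u) = b₁ p := fun u h1 hu => by
      have h3 := zd_lft_le (hP p hp) h1 (by omega)
      have h5 := hcst p hp (lft u) (by omega) fun h6 => hu (prj_lft u ▸ mem_image_of_mem _ h6)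
      refine ⟨?_, h5⟩
      rw [h u hu, hb.agree _ fun i => ?_, h5]
      have h6 := hxp p hp i
      have h7 := GeoA.zd_tri (x i) (lft u) p
      rw [GeoA.zd_comm (x i) (lft u)] at h7
      omega
    rw [G.mem_ball] at he
    have h1 := tdist_triangle (oth e') e'.1 (prj M p)
    have h3 := ISecB.tdist_oth e'
    have k1 := key e'.1 (by omega)
    have k2 := key (oth e') (by omega)
    show xor (if e'.1 ∈ I' then per M σ (lft e'.1) else b₁ (lft e'.1))
      (if oth e' ∈ I' then per M σ (lft (oth e')) else b₁ (lft (oth e'))) =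
      (xor (σ e'.1) (σ (oth e')) && decide (e'.1 ∈ I' ∨ oth e' ∈ I'))
    simp only [I1.per_eq, prj_lft]
    by_cases h5 : e'.1 ∈ I' <;> by_cases h6 : oth e' ∈ I'
    · simp [h5, h6]
    · simp [h5, h6, k2 h6]
    · simp [h5, h6, k1 h5]
    · simp [h5, h6, k1 h5, k2 h6]
  have hout : ∀ s : Tor M → Bool, OutB I b s ↔ OutB I b₁ s := fun s =>
    forall₂_congr fun u hu => by rw [hb₁ _ fun h => hu (prj_lft u ▸ mem_image_of_mem _ h)]
  have hZ : (∑ s : Tor M → Bool, if OutB I' b₁ s then DH1.wT q s else 0) ≠ 0 := by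
    refine (sum_pos' (fun s _ => ?_) ⟨fun u => b₁ (lft u), mem_univ _, ?_⟩).ne'
    · split_ifs
      · exact (DH1.wT_pos hx0 s).le
      · exact le_rfl
    · rw [if_pos (show OutB _ b₁ _ from fun _ _ => rfl)]
      exact DH1.wT_pos hx0 _
  have hZ' : (∑ σ : Tor M → Bool, if OutB I' b' σ then wJ q I' O σ else 0) ≠ 0 := fun h0 => by
    have h1 := hO3 (fun _ => 1) fun _ _ _ => rfl
    rw [ISecB.gibbs_b (M := M) hq hd (by omega) b₁ _ fun _ _ _ => rfl, h0, div_zero] at h1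
    simp only [one_mul] at h1
    exact one_ne_zero ((div_self hZ).symm.trans h1)
  have key : ∀ F : P144.Config → ℝ, (∀ σ σ', (∀ v ∈ dig Λ P t, σ v = σ' v) → F σ = F σ') →
      (∑ s : Tor M → Bool, if OutB I b s then F (per M s) * DH1.wT q s else 0) /
        (∑ s : Tor M → Bool, if OutB I' b₁ s then DH1.wT q s else 0) =
      (∑ σ : Tor M → Bool, if OutB I' b' σ then
        F (per M σ) * (∏ p ∈ P, obP q κ (hol I t p) (nOf I' σ)) * wJ q I' O σ else 0) /
        ∑ σ : Tor M → Bool, if OutB I' b' σ then wJ q I' O σ else 0 := fun F hF => by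
    have h1 : ∀ σ σ', (∀ v ∈ dig Λ P t, σ v = σ' v) → F σ * E σ = F σ' * E σ' :=
      fun σ σ' h => by rw [hF σ σ' h, hE0 σ σ' h]
    have h3 := (ISecB.gibbs_b (M := M) hq hd (by omega) b₁ _ h1).symm.trans (hO3 _ h1)
    simp only [hout]
    rw [SpV.sum_split hq.pot hR hx hD hI (fun _ => filter_subset _ _) b₁ (fun s => F (per M s))
      fun p hp σ σ' h => hF _ _ fun x hx => h _ (((hI _).1 (mem_image_of_mem _ hx)).2 p hp)]
    refine (congrArg (· / _) (sum_congr rfl fun σ _ => ?_)).trans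
      (h3.trans (congrArg (· / _) (sum_congr rfl fun σ _ => ?_)))
    · exact if_ctx_congr Iff.rfl (fun h => by rw [hE1 σ h]) fun _ => rfl
    · exact if_ctx_congr Iff.rfl (fun h => by rw [hE2 σ h]) fun _ => rfl
  have h1 := key (fun _ => 1) fun _ _ _ => rfl
  simp only [one_mul] at h1
  rw [ISecB.gibbs_b (M := M) hq hΛ (by omega) b F fun σ σ' h =>
    hF σ σ' fun v hv => h v (mem_dig.1 hv).1, ← div_div_div_cancel_right₀ hZ, key F hF, h1,
    div_div_div_cancel_right₀ hZ']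

end Vale.Agent.P144Z
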