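import Vale.Agent.P144D.I.V.Defs
import Vale.Agent.P144D.I.O.Alg2

/-!
The flow of the insertions with a correction is well formed.
-/

namespace Vale.Agent.P144Z.IV

open Finset Matrix Geo Mn Vale.Agent.P144Z.IO

variable {g : Geo} {k : ℕ} {s : Fin k → g.P × Fin 4} {v : Cor g.M}

theorem HinV_mem (hg : g.OkW) (q : Par) (hv : v.Ok) (o : ℝ) (O : Fin k → g.Cfg → ℝ) (K : ℕ)
    (X : Finset g.P) (n : g.Cfg) : g.HinV s q v o O K X n ∈ g.elI s X :=
  add_mem (add_mem (emb_elI ((W.R3W.HinC_mem hg hv q X).2 n).1) (carI_mem _ X))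
    (Subalgebra.sum_mem _ fun _ hi => Subalgebra.smul_mem _
      (eI_mem ((mem_filter.1 hi).2 ▸ self_mem_ball _ K)) _)

theorem HinV_RI (hg : g.OkW) (q : Par) (hv : v.Ok) (o : ℝ) {O : Fin k → g.Cfg → ℝ} {K : ℕ}
    (hO : LocO s K O) (X : Finset g.P) : g.HinV s q v o O K X ∈ (g.xt s).RI X := by
  refine ⟨fun n => elI_el (HinV_mem hg q hv o O K X n), fun n n' e => ?_⟩
  have h1 : g.HinC q v X n = g.HinC q v X n' := by
    unfold Geo.HinC
    rw [(Hin_RI hg.src q X).2 n n' e, hv.dep X n n' fun e' h1 h2 => e e' ⟨h1, h2⟩]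
  unfold HinV
  rw [h1]
  congr 1
  refine sum_congr rfl fun i hi => ?_
  have h2 := (mem_filter.1 hi).2
  rw [hO i n n' fun e' h3 h4 => e e' ⟨h2 ▸ h3, h2 ▸ h4⟩]

theorem HinV_empty (hg : g.OkW) (q : Par) (hv : v.Ok) (o : ℝ) (O : Fin k → g.Cfg → ℝ) (K : ℕ) :
    g.HinV s q v o O K ∅ = 0 := by
  funext n
  rw [HinV, W.R3W.HinC_empty hg hv, carI_empty,
    filter_eq_empty_iff.2 fun i _ => ne_empty_of_mem (self_mem_ball _ K), sum_empty]
  simp

theorem scI_zero_HinV (q : Par) (o : ℝ) (O : Fin k → g.Cfg → ℝ) (K : ℕ) (X : Finset g.P)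
    (n : g.Cfg) : g.scI s 0 (g.HinV s q v o O K X n) = g.emb s (g.HinC q v X n) := by
  simp only [HinV, map_add, map_sum, map_smul, scI_emb, scI_zero_carI, scI_zero_eI, smul_zero,
    sum_const_zero, add_zero]

theorem wf_initV (hg : g.OkW) (q : Par) (hv : v.Ok) (o : ℝ) {O : Fin k → g.Cfg → ℝ} {K : ℕ}
    (hO : LocO s K O) : g.WfI s (g.initV s q v o O K) := by
  refine ⟨?_, fun X => ?_, fun X => ?_⟩
  · have h1 : Cl ((g.xt s).E0 (q.x * q.Z)) (g.HinV s q v o O K) ∅ = 0 :=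
      R3W.Cl_eq_zero _ (R3W.E0_one _) fun X hX => by
        rw [subset_empty.1 hX]
        exact HinV_empty hg q hv o O K
    simp only [initV]
    rw [h1, W.R3W.W0C_empty hg hv, map_zero, carI_empty, sub_zero, sub_zero]
  · exact sub_mem (sub_mem (Cl0_elI _ (HinV_RI hg q hv o hO) (HinV_mem hg q hv o O K) X)
      (emb_elI (W.Geo.W0C_mem hg hv q X).1)) (carI_mem _ X)
  · have h1 := (scI_Cl0 (q.x * q.Z) 0 (g.HinV s q v o O K) X).trans
      (Cl_congr _ fun X _ => funext (scI_zero_HinV q o O K X))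
    simp only [initV]
    rw [map_sub, map_sub, scI_emb, scI_zero_carI, sub_zero]
    exact sub_eq_zero.2 (h1.trans (Cl_emb0 _ _ X))

theorem wf_flowV (hg : g.OkW) (L : ℕ) (q : Par) (hv : v.Ok) (o : ℝ) {O : Fin k → g.Cfg → ℝ}
    {K : ℕ} (hO : LocO s K O) (u : Fin k → ℕ → g.P × Fin 4 → ℝ) (j : ℕ) :
    g.WfI s (g.flowV s L q v o O K u j) := by
  induction j with
  | zero => exact wf_initV hg q hv o hO
  | succ j ih =>
    have h := W.Geo.wf_flowC hg hv L q j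
    exact wf_stepI hg.sign _ _ (fun X => (h.H_mem X).1) h.H_empty _ ih

theorem sum_Y_initV (q : Par) (o : ℝ) (O : Fin k → g.Cfg → ℝ) (K : ℕ) :
    ∑ X, (g.initV s q v o O K).Y X =
      ∑ U, Cl ((g.xt s).E0 (q.x * q.Z)) (g.HinV s q v o O K) U - g.emb s (∑ U, g.W0C q v U) := by
  simp only [StI.Y, initV, sub_add_cancel, sum_sub_distrib, map_sum]

end Vale.Agent.P144Z.IV
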