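import Vale.Agent.P144D.I.V.DefsL
import Vale.Agent.P144E.Ge2.Conn

/-!
The boundary condition of the dug set.
-/

namespace Vale.Agent.P144Z

open B5b GeoA

namespace VBc

theorem abs_floor (x : ℝ) : |(⌊x⌋ : ℝ) - x| ≤ 1 :=
  abs_le.2 ⟨by linarith [Int.lt_floor_add_one x], by linarith [Int.floor_le x]⟩

/-- A lattice point in the direction `ζ`. -/
theorem rnd {ζ : ℂ} (hζ : ‖ζ‖ ≤ 2) (l : ℕ) : ∃ a : ℤ × ℤ, zd a 0 ≤ 2 * l + 1 ∧
    ∀ ν : ℂ, ‖ν‖ = 1 → |ht ν a - l * (ζ.re * ν.re + ζ.im * ν.im)| ≤ 2 := by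
  have l0 : (0 : ℝ) ≤ l := Nat.cast_nonneg l
  have k : ∀ x : ℝ, |x| ≤ 2 → |(⌊l * x⌋ : ℝ)| ≤ (2 * l + 1 : ℕ) := fun x hx => by
    have h1 := abs_le.1 (abs_floor (l * x))
    have h2 := abs_le.1 hx
    push_cast
    exact abs_le.2 ⟨by nlinarith, by nlinarith⟩
  refine ⟨(⌊l * ζ.re⌋, ⌊l * ζ.im⌋), ?_, fun ν hν => ?_⟩
  · exact_mod_cast Ge2.zd_le_real (y := (⌊l * ζ.re⌋, ⌊l * ζ.im⌋))
      (k _ ((Complex.abs_re_le_norm ζ).trans hζ)) (k _ ((Complex.abs_im_le_norm ζ).trans hζ))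
  · have h1 := mul_le_one₀ (abs_floor (l * ζ.re)) (abs_nonneg _)
      ((Complex.abs_re_le_norm ν).trans hν.le)
    have h2 := mul_le_one₀ (abs_floor (l * ζ.im)) (abs_nonneg _)
      ((Complex.abs_im_le_norm ν).trans hν.le)
    rw [← abs_mul] at h1 h2
    refine le_trans (le_of_eq (congrArg _ ?_))
      (((abs_add_le _ _).trans (add_le_add h1 h2)).trans one_add_one_eq_two.le)
    simp only [ht]
    ring

theorem one_wall {α κ κ' : ℝ} {d l : ℕ} (hα : 0 < α) (hα2 : α ≤ 2)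
    (hl : 32 * ((d : ℝ) + 3) ≤ l * α ^ 2) (h0 : 0 ≤ κ') (h1 : κ' ≤ κ) (h2 : κ ≤ α ^ 2 / 128)
    {S : Set (ℤ × ℤ)} {μ ν : ℂ} (hμ : ‖μ‖ = 1) (hν : ‖ν‖ = 1) (hS : Epi S μ κ)
    (w : ∃ f ∈ S, zd f 0 ≤ 2) (h : α / 2 ≤ ‖μ - ν‖) {a' : ℤ × ℤ} (ha' : zd a' 0 ≤ d) :
    ∃ a ∈ S, zd a 0 ≤ 2 * l + 1 ∧ d < zd a 0 ∧ κ' * len (a' - a) ≤ ht ν (a' - a) := by
  obtain ⟨a, a1, a2⟩ := rnd (ζ := μ - ν) ((norm_sub_le _ _).trans (by linarith)) l
  have e1 := sq_of_norm hμ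
  have e2 := sq_of_norm hν
  have e3 := Complex.sq_norm (μ - ν)
  have e4 : (α / 2) ^ 2 ≤ ‖μ - ν‖ ^ 2 := pow_le_pow_left₀ (by positivity) h 2
  have b1 := (abs_le.1 (a2 μ hμ)).1
  have b2 := (abs_le.1 (a2 ν hν)).2
  simp only [Complex.normSq_apply, Complex.sub_re, Complex.sub_im] at e3 b1 b2
  have l0 : (0 : ℝ) ≤ l := Nat.cast_nonneg l
  have d0 : (0 : ℝ) ≤ d := Nat.cast_nonneg d
  have c1 := mul_le_mul_of_nonneg_left (show α ^ 2 / 8 ≤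
    (μ.re - ν.re) * μ.re + (μ.im - ν.im) * μ.im by linarith) l0
  have c2 := mul_le_mul_of_nonneg_left (show
    (μ.re - ν.re) * ν.re + (μ.im - ν.im) * ν.im ≤ -(α ^ 2 / 8) by linarith) l0
  have c3 := mul_le_mul_of_nonneg_left h2 l0
  have c4 : κ ≤ 1 / 32 := by nlinarith
  have c5 := (abs_le.1 ((Ge2.bx_of (le_refl (zd a 0))).ht_le hμ.le)).2
  have c6 := (abs_le.1 ((Ge2.bx_of ha').ht_le hν.le)).1
  have c7 := mul_le_mul h1 ((Ge2.bx_of ha').sub (Ge2.bx_of a1)).len_le (Real.sqrt_nonneg _)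
    (h0.trans h1)
  have c8 := mul_le_mul_of_nonneg_left c4 d0
  push_cast at c5 c6 c7
  refine ⟨a, ?_, a1, ?_, ?_⟩
  · have := Ge2.inn hS hμ (h0.trans h1) (by linarith) w a1 (v := 0) (ρ := 0) (by simp [zd])
      (by push_cast; linarith)
    rwa [add_zero] at this
  · exact_mod_cast (show (d : ℝ) < zd a 0 by linarith)
  · rw [ht_sub]
    linarith

/-- A union of two crossing walls is not one wall. -/
theorem no_epi {α : ℝ} (hα : 0 < α) (d : ℕ) : ∃ K : ℕ, ∀ κ κ' : ℝ, 0 ≤ κ' → κ' ≤ κ →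
    κ ≤ α ^ 2 / 128 → ∀ S₁ S₂ ν₁ ν₂, TipS S₁ S₂ ν₁ ν₂ α κ → ∀ ν : ℂ, ‖ν‖ = 1 →
    ∀ a' : ℤ × ℤ, zd a' 0 ≤ d → ∃ a, (a ∈ S₁ ∨ a ∈ S₂) ∧ zd a 0 ≤ K ∧ d < zd a 0 ∧
      κ' * len (a' - a) ≤ ht ν (a' - a) := by
  obtain ⟨l, hl⟩ : ∃ l : ℕ, 32 * ((d : ℝ) + 3) ≤ l * α ^ 2 :=
    ⟨_, (div_le_iff₀ (by positivity)).1 (Nat.le_ceil _)⟩
  refine ⟨2 * l + 1, fun κ κ' h0 h1 h2 S₁ S₂ ν₁ ν₂ h ν hν a' ha' => ?_⟩
  have h3 := norm_sub_le_norm_sub_add_norm_sub ν₁ ν ν₂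
  rw [norm_sub_rev ν] at h3
  by_cases h4 : α / 2 ≤ ‖ν₁ - ν‖
  · obtain ⟨a, k1, k2⟩ := one_wall hα h.le_two hl h0 h1 h2 h.n₁ hν h.e₁ h.w₁.1 h4 ha'
    exact ⟨a, Or.inl k1, k2⟩
  · obtain ⟨a, k1, k2⟩ := one_wall hα h.le_two hl h0 h1 h2 h.n₂ hν h.e₂ h.w₂.1
      (by linarith [h.sub]) ha'
    exact ⟨a, Or.inr k1, k2⟩

theorem zd_add (p v : ℤ × ℤ) : zd (p + v) p = zd v 0 := by simp [zd]

end VBc

open VBc

theorem digBc : DigBc := by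
  classical
  intro α hα t
  obtain ⟨t₀, κ₁, hκ₁, hc⟩ := tipConn α hα
  obtain ⟨N, hc⟩ := hc t₀ le_rfl
  obtain ⟨K, hK⟩ := no_epi hα (t + t₀)
  refine ⟨4 * (K + t + t₀ + 1), by omega, min κ₁ (α ^ 2 / 128), by positivity,
    fun κ hκ hκ₀ α' κ' hκ' hκκ Λ P b r hR hb hr => ?_⟩
  obtain ⟨k1, k2⟩ := le_min_iff.1 hκ₀
  have hq : ∀ ρ, 4 * (ρ / (4 * (K + t + t₀ + 1))) ≤ ρ := fun ρ =>
    (Nat.mul_le_mul_right _ (by omega)).trans (Nat.mul_div_le ρ _)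
  have r4 := hq r
  have uniq : ∀ p ∈ P, ∀ p' ∈ P, ∀ v, zd v p + zd v p' ≤ r → p = p' := fun p hp p' hp' v h => by
    by_contra e
    have := hR.sep p hp p' hp' e
    have := zd_tri p v p'
    rw [zd_comm p v] at this
    omega
  have self : ∀ p ∈ P, p ∉ dig Λ P t := fun p hp h => by
    simpa [zd] using (mem_dig.1 h).2 p hp
  refine ⟨?_, fun p hp x e ρ h1 h2 hm => ?_⟩
  · have key : ∀ p ∈ P, ∃ c : Bool, ∀ v, zd v p ≤ r → v ∉ Λ → b v = c := fun p hp => by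
      obtain ⟨S₁, S₂, ν₁, ν₂, hT, hΛ⟩ := hR.tip p hp
      obtain ⟨f, f1, f2⟩ := hT.w₁.1
      rcases hb p ⟨p + f, (hΛ f (by omega)).2 (Or.inl f1), by rw [zd_add]; omega⟩ with
        h | h | ⟨S, S', ν, τ, hν, -, -, -, hS, -, h⟩
      · exact ⟨_, h⟩
      · exact ⟨_, h⟩
      · obtain ⟨a', b1, b2, b3⟩ := (hc κ hκ.le k1 S₁ S₂ ν₁ ν₂ hT).1
        obtain ⟨a, a1, a2, -, a3⟩ := hK κ κ' hκ'.le hκκ k2 S₁ S₂ ν₁ ν₂ hT ν hν a' (by omega)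
        have a4 := hS a ((h a (by omega)).1.1 ((hΛ a (by omega)).2 a1)) _ a3
        rw [add_sub_cancel] at a4
        have a5 : zd a' 0 ≤ r := by omega
        exact absurd ((hΛ a' a5).1 ((h a' a5).1.2 a4)) (not_or.2 ⟨b2, b3⟩)
    choose! c hc using key
    obtain ⟨b₁, e1, e2⟩ : ∃ b₁ : ℤ × ℤ → Bool, (∀ v, v ∉ Λ → b₁ v = b v) ∧
        ∀ p ∈ P, ∀ v, zd v p + t ≤ r → v ∉ dig Λ P t → b₁ v = c p := by
      refine ⟨fun v => if v ∈ Λ then decide (∃ p ∈ P, zd v p ≤ t ∧ c p = true) else b v,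
        fun v hv => if_neg hv, fun p hp v h1 h2 => ?_⟩
      by_cases hv : v ∈ Λ
      · rw [mem_dig] at h2
        push Not at h2
        obtain ⟨p', hp', h3⟩ := h2 hv
        obtain rfl := uniq p hp p' hp' v (by omega)
        simp only [if_pos hv]
        rw [Bool.eq_iff_iff, decide_eq_true_iff]
        refine ⟨fun ⟨p', hp', h4, h5⟩ => ?_, fun h => ⟨p, hp, h3, h⟩⟩
        rwa [uniq p hp p' hp' v (by omega)]
      · simp only [if_neg hv]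
        exact hc p hp v (by omega) hv
    refine ⟨b₁, e1, fun z ⟨v, hv, hz⟩ => ?_, fun p hp v h1 h2 => ?_⟩
    · by_cases h : ∃ p ∈ P, zd z p ≤ r / (4 * (K + t + t₀ + 1)) + t
      · obtain ⟨p, hp, h⟩ := h
        have h1 : ∀ v, zd v z ≤ r / (4 * (K + t + t₀ + 1)) → v ∉ dig Λ P t → b₁ v = c p :=
          fun v h1 => e2 p hp v (by have := zd_tri v z p; omega)
        cases h2 : c p
        · exact Or.inr (Or.inl (h2 ▸ h1))
        · exact Or.inl (h2 ▸ h1)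
      · push Not at h
        have h1 : ∀ v, zd v z ≤ r / (4 * (K + t + t₀ + 1)) → (v ∈ dig Λ P t ↔ v ∈ Λ) := fun v h1 =>
          ⟨fun h => (mem_dig.1 h).1, fun h2 => mem_dig.2 ⟨h2, fun p hp => by
            have := h p hp
            have := zd_tri z v p
            rw [zd_comm z v] at this
            omega⟩⟩
        rcases hb z ⟨v, (mem_dig.1 hv).1, by omega⟩ with
          h2 | h2 | ⟨S, S', ν, τ, a1, a2, a3, a4, a5, a6, h2⟩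
        · refine Or.inl fun v h3 h4 => ?_
          rw [h1 v h3] at h4
          rw [e1 v h4, h2 v (by omega) h4]
        · refine Or.inr (Or.inl fun v h3 h4 => ?_)
          rw [h1 v h3] at h4
          rw [e1 v h4, h2 v (by omega) h4]
        · refine Or.inr (Or.inr ⟨S, S', ν, τ, a1, a2, a3, a4, a5, a6, fun v h3 => ?_⟩)
          rw [h1 _ (by rwa [zd_add])]
          refine ⟨(h2 v (by omega)).1, fun h4 => ?_⟩
          rw [e1 _ h4]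
          exact (h2 v (by omega)).2 h4
    · rw [e2 p hp v (by omega) h2, e2 p hp p (by simp [zd]; omega) (self p hp)]
  · by_contra h3
    have r5 := hq ρ
    obtain ⟨S₁, S₂, ν₁, ν₂, hT, hΛ⟩ := hR.tip p hp
    obtain ⟨S, ν, hν, hS, -, h⟩ := hm.cone
    obtain ⟨a, a1, a2, a3, a4⟩ := hK κ κ' hκ'.le hκκ k2 S₁ S₂ ν₁ ν₂ hT ν hν 0 (by simp [zd])
    have a5 := zd_add p a
    have a6 : p + a ∈ dig Λ P t := mem_dig.2 ⟨(hΛ a (by omega)).2 a1, fun p' hp' => by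
      by_contra h4
      obtain rfl := uniq p hp p' hp' (p + a) (by omega)
      omega⟩
    have a7 := zd_tri (p + a) p x
    have a8 := zd_comm p x
    have a9 := hS _ ((h (p + a - x) (by rw [Ge2.zd_sub]; omega)).1
      (by rwa [add_sub_cancel])) _ a4
    have a10 := (h _ (by rw [show p + a - x + (0 - a) = p - x by abel, Ge2.zd_sub]; omega)).2 a9
    rw [show x + (p + a - x + (0 - a)) = p by abel] at a10
    exact self p hp a10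

end Vale.Agent.P144Z
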