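import Vale.Agent.P144D.I.V.DefsL
import Vale.Agent.P144D.I.Deep.Main
import Vale.Agent.P144E.Basic

/-!
Deep points of the dug sets.
-/

namespace Vale.Agent.P144Z

open Finset GeoA IConv IDeep

namespace VDeep

variable {Λ P : Finset (ℤ × ℤ)} {α κ : ℝ} {r C t : ℕ}

/-- Near `z` the set is stable under the cone around the direction `(a, b)`. -/
def Dir (Λ : Finset (ℤ × ℤ)) (α : ℝ) (r : ℕ) (z : ℤ × ℤ) (a b : ℝ) : Prop :=
  |a| ≤ 1 ∧ |b| ≤ 1 ∧ ∀ (u x : ℤ × ℤ) (t D : ℕ), u ∈ Λ → zd u z ≤ r → zd x z ≤ r →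
    zd x (u + fl a b t) ≤ D → 5 * ((D : ℝ) + 1) ≤ t * α → x ∈ Λ

theorem exists_dir (h : RawZ Λ P α κ r) (hα : 0 < α) (h0 : 0 ≤ κ) (h1 : 100 * κ ≤ α)
    (h2 : 100 * κ ≤ 1) (z : ℤ × ℤ) : ∃ a b, Dir Λ α r z a b := by
  have sh : ∀ (p u x : ℤ × ℤ) (w : ℤ × ℤ), zd (x - p) (u - p + w) = zd x (u + w) := by
    intro p u x w
    simp only [zd, Prod.fst_add, Prod.snd_add, Prod.fst_sub, Prod.snd_sub]
    omega
  rcases h.chart z with ⟨S₁, S₂, ν₁, ν₂, n1, n2, n3, e1, e2, hS⟩ |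
    ⟨p, -, ρ, hρ, S₁, S₂, ν₁, ν₂, k, hS⟩
  · obtain ⟨a, b, ha, hb, m1, m2⟩ := exists_mu n1 n2 hα n3
    refine ⟨a, b, ha, hb, fun u x t D hu hur hxr hx hD => ?_⟩
    have k1 := (hS (u - z) (by rwa [zd_sub_zero])).1 (by simpa using hu)
    rw [← sh z] at hx
    have := (hS (x - z) (by rwa [zd_sub_zero])).2
      ⟨up e1 n1 h0 h1 h2 ha hb m1 k1.1 hx hD, up e2 n2 h0 h1 h2 ha hb m2 k1.2 hx hD⟩
    simpa using this
  · obtain ⟨a, b, ha, hb, m1, m2⟩ := exists_mu k.n₁ k.n₂ hα k.add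
    refine ⟨a, b, ha, hb, fun u x t D hu hur hxr hx hD => ?_⟩
    have t1 := zd_tri u z p
    have t2 := zd_tri x z p
    have k1 := (hS (u - p) (by rw [zd_sub_zero]; omega)).1 (by simpa using hu)
    rw [← sh p] at hx
    have := (hS (x - p) (by rw [zd_sub_zero]; omega)).2
      (k1.imp (fun o => up k.e₁ k.n₁ h0 h1 h2 ha hb m1 o hx hD)
        fun o => up k.e₂ k.n₂ h0 h1 h2 ha hb m2 o hx hD)
    simpa using this

/-- There is an outer point near each tip. -/
theorem exists_out {p : ℤ × ℤ} (h : TipZ Λ α κ r p) (hα : 0 < α) (h0 : 0 ≤ κ) (h1 : 100 * κ ≤ α)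
    (h2 : 100 * κ ≤ 1) (hC : 300 ≤ C * α) (hr : C ≤ r) : ∃ v, v ∉ Λ ∧ zd v p ≤ C := by
  obtain ⟨S₁, S₂, ν₁, ν₂, k, hS⟩ := h
  obtain ⟨a, b, ha, hb, m1, m2⟩ := exists_mu k.n₁ k.n₂ hα k.add
  obtain ⟨f₁, f1, f2⟩ := k.w₁.2
  obtain ⟨f₂, f3, f4⟩ := k.w₂.2
  have t1 : zd (-fl a b C) 0 ≤ C := by simpa [zd] using zd_fl ha hb C
  have t2 : 5 * (((2 : ℕ) : ℝ) + 1) ≤ C * α := by
    push_cast
    linarith
  refine ⟨p + -fl a b C, fun o => ((hS _ (t1.trans hr)).1 o).elim (fun o => f1 ?_) fun o => f3 ?_,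
    by rwa [zd_add_left]⟩
  · exact up k.e₁ k.n₁ h0 h1 h2 ha hb m1 o (by rwa [neg_add_cancel]) t2
  · exact up k.e₂ k.n₂ h0 h1 h2 ha hb m2 o (by rwa [neg_add_cancel]) t2

theorem deep_dig (h : ∀ p ∈ P, ∃ v, v ∉ Λ ∧ zd v p ≤ C) {d : ℕ} {x : ℤ × ℤ}
    (hx : Deep Λ (d + (t + C)) x) : Deep (dig Λ P t) d x := by
  intro v hv
  refine mem_dig.2 ⟨hx v (by omega), fun p hp => ?_⟩
  obtain ⟨w, w1, w2⟩ := h p hp
  by_contra o
  have t1 := zd_tri w p v
  have t2 := zd_tri w v x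
  rw [zd_comm p v] at t1
  exact w1 (hx w (by omega))

theorem cork {u : ℤ × ℤ} {a b : ℝ} (h : Dir Λ α r u a b) (hC : 300 ≤ C * α) {d : ℕ} (hd : 1 ≤ d)
    (hr : (C + 50) * d ≤ r) (hu : u ∈ Λ) : ∃ p, zd p u ≤ (C + 50) * d ∧ Deep Λ d p := by
  obtain ⟨ha, hb, key⟩ := h
  have t1 := zd_fl ha hb (C * d)
  have t2 := exists_time hC d
  have t3 : (1 : ℝ) ≤ d := by exact_mod_cast hd
  rw [add_mul] at hr ⊢
  rw [← zd_add_left u] at t1
  refine ⟨u + fl a b (C * d), by omega, fun v hv => key u v (C * d) d hu ?_ ?_ hv (by linarith)⟩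
  · rw [IConv.zd_self]
    exact Nat.zero_le _
  · have := zd_tri v (u + fl a b (C * d)) u
    omega

theorem conn {p p' : ℤ × ℤ} {a b : ℝ} (h : Dir Λ α r p a b) (hα : 0 < α) (hC : 300 ≤ C * α)
    {d e s : ℕ} (hd : d + C + 2 ≤ e) (hs : e ≤ 2 * s) (hr : (C + 50) * s ≤ r)
    (hp : Deep Λ e p) (hp' : Deep Λ e p') (hpp : zd p p' ≤ s) : Rch (Deep Λ d) p p' := by
  obtain ⟨ha, hb, key⟩ := h
  rw [add_mul] at hr
  have move : ∀ q, Deep Λ e q → zd q p ≤ s → ∀ t ≤ C * s,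
      Rch (Deep Λ d) q (q + fl a b t) := by
    intro q hq hqp t
    induction t with
    | zero =>
      intro _
      rw [fl_zero, add_zero]
      exact Relation.ReflTransGen.refl
    | succ t ih =>
      intro ht
      refine (ih (by omega)).trans (rch_box (D := 1) (fun x hx y hy => ?_) ?_).symm
      · have t1 := zd_fl ha hb t
        rw [← zd_add_left q] at t1
        have t2 := zd_tri y x (q + fl a b t)
        have t3 := zd_tri y (q + fl a b t) q
        by_cases hc : t ≤ C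
        · exact hq y (by omega)
        · have t4 : zd (y - fl a b t) q ≤ d + 1 := by
            simp only [zd, Prod.fst_add, Prod.snd_add, Prod.fst_sub, Prod.snd_sub] at t2 hx hy ⊢
            omega
          have t5 := zd_tri (y - fl a b t) q p
          have t6 := zd_tri y q p
          refine key (y - fl a b t) y t 0 (hq _ (by omega)) (by omega) (by omega) ?_ ?_
          · rw [sub_add_cancel, IConv.zd_self]
          · have t7 : (C : ℝ) ≤ t := by exact_mod_cast (by omega : C ≤ t)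
            have := mul_le_mul_of_nonneg_right t7 hα.le
            push_cast
            linarith
      · have := floor_step ha t
        have := floor_step hb t
        simp only [zd, fl, Prod.fst_add, Prod.snd_add]
        omega
  have hp0 : p ∈ Λ := hp p (by rw [IConv.zd_self]; exact Nat.zero_le _)
  refine (move p hp (by rw [IConv.zd_self]; exact Nat.zero_le _) _ le_rfl).trans
    ((move p' hp' (by rwa [zd_comm]) _ le_rfl).trans
      (rch_box (D := s) (fun x hx y hy => ?_) ?_)).symm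
  · have t1 := zd_fl ha hb (C * s)
    rw [← zd_add_left p] at t1
    have t2 := zd_tri y x (p + fl a b (C * s))
    have t3 := zd_tri y (p + fl a b (C * s)) p
    have t4 := exists_time hC s
    have t5 : (1 : ℝ) ≤ s := by exact_mod_cast (by omega : 1 ≤ s)
    refine key p y (C * s) (3 * s) hp0 (by rw [IConv.zd_self]; exact Nat.zero_le _) (by omega)
      (by omega) ?_
    push_cast at t4 ⊢
    linarith
  · simp only [zd, Prod.fst_add, Prod.snd_add] at hpp ⊢
    omega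

/-- A short path of the torus gives a path of the plane. -/
theorem out {M : ℕ} [NeZero M] {T s ρ : ℕ} (hΛ : ∀ v ∈ Λ, zd v 0 ≤ T) {f f' : ℤ × ℤ}
    (h : ConnB (Λ.image (prj M)) (prj M f) s ρ) (hM : 2 * T + 2 * s + 2 * ρ + 1 < M) (hf : f ∉ Λ)
    (hf' : f' ∉ Λ) (hff : zd f f' ≤ s) : Rch (fun v => v ∉ Λ) f f' := by
  rw [zd_comm] at hff
  by_cases hT : T + s < zd f 0
  · refine (rch_box (D := s) (fun x hx o => ?_) hff).symm
    have t1 := hΛ x o
    have t2 := zd_tri f x 0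
    rw [zd_comm f x] at t2
    omega
  have t1 := zd_tri f' f 0
  have k := h (prj M f) (prj M f') ((tdist_prj_le_zd f f).trans (by simp [zd]))
    ((tdist_prj_le_zd f' f).trans hff)
    (fun o => hf ((mem_image_prj hΛ (R := T + 2 * s) (by omega) (by omega)).1 o))
    (fun o => hf' ((mem_image_prj hΛ (R := T + 2 * s) (by omega) (by omega)).1 o))
  have e0 : ∀ g, prj M (f + lft (g - prj M f)) = g := fun g => by
    rw [G.prj_add, G.add_prj_lft]
  have e1 : ∀ g, zd (f + lft (g - prj M f)) f = tdist g (prj M f) := fun g => by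
    rw [zd_add_left, zd_lft]
  have e2 : ∀ x, zd x f ≤ s → f + lft (prj M x - prj M f) = x := fun x hx => by
    refine prj_inj (M := M) ?_ (e0 _)
    have t2 := tdist_prj_le_zd (M := M) x f
    have t3 := zd_tri (f + lft (prj M x - prj M f)) f x
    rw [e1, zd_comm f x] at t3
    omega
  have e3 : ∀ (u w : Tor M) (i : Fin 2), tdist u (prj M f) ≤ ρ → tdist w (prj M f) ≤ ρ →
      w = u + uv M i → f + lft (w - prj M f) = f + lft (u - prj M f) + (1, 0) ∨
        f + lft (w - prj M f) = f + lft (u - prj M f) + (0, 1) := by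
    intro u w i hu hw e
    rw [← e1] at hu hw
    fin_cases i
    · refine Or.inl (prj_inj (M := M) ?_ (by rw [e0, G.prj_add, e0, ← G.uv_zero]; exact e))
      generalize f + lft (w - prj M f) = x at hw ⊢
      generalize f + lft (u - prj M f) = y at hu ⊢
      simp only [zd, Prod.fst_add, Prod.snd_add] at hu hw ⊢
      omega
    · refine Or.inr (prj_inj (M := M) ?_ (by rw [e0, G.prj_add, e0, ← G.uv_one]; exact e))
      generalize f + lft (w - prj M f) = x at hw ⊢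
      generalize f + lft (u - prj M f) = y at hu ⊢
      simp only [zd, Prod.fst_add, Prod.snd_add] at hu hw ⊢
      omega
  rw [← e2 f (by simp [zd]), ← e2 f' hff]
  refine Relation.ReflTransGen.lift (fun g => f + lft (g - prj M f)) ?_ _ _ k
  rintro u w ⟨q1, q2, q3, q4, i, q5⟩
  refine ⟨fun o => q3 (e0 u ▸ mem_image_of_mem _ o), fun o => q4 (e0 w ▸ mem_image_of_mem _ o), ?_⟩
  beta_reduce
  rcases q5 with q5 | q5
  · exact (e3 u w i q1 q2 q5).elim Or.inl fun o => Or.inr (Or.inl o)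
  · refine Or.inr (Or.inr ((e3 w u i q2 q1 q5).imp (fun o => ?_) fun o => ?_)) <;>
      rw [o, add_assoc _ _ (_, _)] <;> simp

end VDeep

open VDeep in
theorem deepD : DeepD := by
  intro α hα t N
  have hC : 300 ≤ (⌈300 / α⌉₊ : ℕ) * α := (div_le_iff₀ hα).1 (Nat.le_ceil _)
  generalize ⌈300 / α⌉₊ = C at hC
  refine ⟨(C + 50) * (t + C + 1) + (t + 2 * C + 2 * N + 2), 1, le_rfl, min α 1 / 100,
    by positivity, fun κ h0 hκ Λ P r r' T h hΛ hR hr _ => ?_⟩
  have h1 : 100 * κ ≤ α := by linarith [min_le_left α 1]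
  have h2 : 100 * κ ≤ 1 := by linarith [min_le_right α 1]
  rw [Nat.div_one]
  have hs : ∀ s, 1 ≤ s → ((C + 50) * (t + C + 1) + (t + 2 * C + 2 * N + 2)) * s ≤ r' →
      (C + 50) * (s + (t + C)) ≤ ((C + 50) * (t + C + 1) + (t + 2 * C + 2 * N + 2)) * s ∧
        N * (s + 1) ≤ r' ∧ s ≤ r' ∧ ∀ p ∈ P, ∃ v, v ∉ Λ ∧ zd v p ≤ C := by
    intro s k1 k2
    have a1 : (C + 50) * (s + (t + C)) ≤ (C + 50) * (t + C + 1) * s := by
      rw [mul_assoc]
      exact Nat.mul_le_mul_left _ (by nlinarith)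
    have a2 : N * (s + 1) + s + C ≤ (t + 2 * C + 2 * N + 2) * s := by nlinarith
    rw [add_mul ((C + 50) * (t + C + 1))] at k2 ⊢
    exact ⟨by omega, by omega, by omega,
      fun p hp => exists_out (h.tip p hp) hα h0.le h1 h2 hC (by omega)⟩
  refine ⟨fun d hd k u hu => ?_, fun d s hd k1 k p p' hp hp' hpp => ?_,
    fun s k1 k f f' hf hf' hff => ?_⟩
  · obtain ⟨a1, -, -, a2⟩ := hs d hd k
    obtain ⟨a, b, hD⟩ := exists_dir h hα h0.le h1 h2 u
    obtain ⟨p, p1, p2⟩ := cork hD hC (d := d + (t + C)) (by omega) (by omega) (mem_dig.1 hu).1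
    exact ⟨p, p1.trans a1, deep_dig a2 p2⟩
  · obtain ⟨a1, -, -, a2⟩ := hs s (by omega) k
    obtain ⟨a, b, hD⟩ := exists_dir h hα h0.le h1 h2 p
    have a3 : (C + 50) * s ≤ (C + 50) * (s + (t + C)) := Nat.mul_le_mul_left _ (by omega)
    exact rch_mono (fun _ => deep_dig a2) (conn hD hα hC (d := d + (t + C)) (e := 2 * d)
      (by omega) (by omega) (by omega) (fun v hv => (mem_dig.1 (hp v hv)).1)
      (fun v hv => (mem_dig.1 (hp' v hv)).1) hpp)
  · obtain ⟨-, a1, a2, -⟩ := hs s k1 k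
    have : NeZero (4 * (T + r) + 2) := ⟨by omega⟩
    exact out (fun v hv => hΛ v (mem_dig.1 hv).1)
      ((hR (4 * (T + r) + 2) (by omega)).conn _ s a1) (by omega) hf hf' hff

end Vale.Agent.P144Z
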