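import Vale.Agent.P144D.I.V.DefsL
import Vale.Agent.P144D.I.Pw.Lat
import Vale.Agent.P144E.Lat.Dom

/-!
Sign changes of the boundary condition in domains with reentrant corners: from finite sets of
sites to domains of the plane.
-/

namespace Vale.Agent.P144Z

open Filter Topology Vale.Agent.P144 U2D

namespace IVD

theorem diffJ {J lam β : ℝ} (hS : RawStmt) {q : Par} {Zσ Zε α κ : ℝ} (hκ : 0 < κ)
    (hL : LatOKJW q Zσ Zε α κ) (hJ : 0 < J) (hμ : q.μ = β * lam)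
    (hx : q.x = Real.exp (-(2 * β * J))) {D P : Set ℂ} (hD : TameW α D) (hP : PW D P) :
    Diff D (crit J D (some (bcOf P))) (inDom J lam q.V β D (some (bcOf P))) Zσ Zε := by
  intro p hp
  obtain ⟨T, hT, h1⟩ := hS α D hD
  obtain ⟨ρ, hρ, h1⟩ := h1 κ hκ
  obtain ⟨α', hα', hw⟩ := pwStmt D P hP
  obtain ⟨ρ', hρ', hw⟩ := hw (min κ (α' / 100)) (by positivity)
  obtain ⟨s, hs, hsρ, h2⟩ := spins hD.1 hp (lt_min hρ hρ')
  rw [Metric.tendsto_nhds]
  intro ε hε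
  set K := ((s / 2) ^ (-(1 / 8) : ℝ)) ^ p.n * (s / 2)⁻¹ ^ p.m with hK
  have hK0 : 0 < K := by positivity
  obtain ⟨r₀, hr⟩ := hL J lam β hJ hμ hx α' (min κ (α' / 100)) (by positivity) (min_le_left _ _)
    (by linarith [min_le_right κ (α' / 100)]) p.n p.m ⌈2 * T / s⌉₊ (ε / (2 * K)) (by positivity)
  have h3 : ∀ᶠ a in 𝓝[>] (0 : ℝ), a < s / (2 * (r₀ + 1)) :=
    nhdsWithin_le_nhds (gt_mem_nhds (by positivity))
  filter_upwards [h2, h3, self_mem_nhdsWithin] with a ⟨hrc, hP⟩ ha ha0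
  have ha0' : 0 < a := ha0
  obtain ⟨d1, d2, d3⟩ := h1 a ha0'
  have r1 : (⌊s / a⌋₊ : ℝ) ≤ s / a := Nat.floor_le (by positivity)
  generalize ⌊s / a⌋₊ = r at hrc hP r1
  have hr0 : r₀ + 1 ≤ r := by
    have : (r₀ + 1 : ℝ) ≤ s / (2 * a) := by
      rw [lt_div_iff₀ (by positivity)] at ha
      rw [le_div_iff₀ (by positivity)]
      nlinarith
    exact_mod_cast this.trans hrc
  have hbox : ∀ v ∈ disc D a, zd v 0 ≤ ⌈2 * T / s⌉₊ * r := fun v hv => by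
    have : (zd v 0 : ℝ) ≤ (⌈2 * T / s⌉₊ : ℝ) * r := by
      calc (zd v 0 : ℝ) ≤ T / a := by
            rw [le_div_iff₀' ha0']
            exact d2 v hv
        _ = 2 * T / s * (s / (2 * a)) := by field_simp
        _ ≤ _ := mul_le_mul (Nat.le_ceil _) hrc (by positivity) (by positivity)
    exact_mod_cast this
  have r2 : a * r ≤ min ρ ρ' := ((le_div_iff₀' ha0').1 r1).trans hsρ
  obtain ⟨P', hsh⟩ := d3 r (by omega) (r2.trans (min_le_left _ _))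
  have k1 : |lcor (inDom J lam q.V β D (some (bcOf P)) a) (fun i => fl a (p.x i))
      (fun k => fl a (p.y k)) p.j - Zσ ^ p.n * Zε ^ p.m * lcor (crit J D (some (bcOf P)) a)
        (fun i => fl a (p.x i)) (fun k => fl a (p.y k)) p.j| ≤
        ε / (2 * K) * (r : ℝ) ^ (-((p.n : ℝ) / 8)) / (r : ℝ) ^ p.m :=
    hr r (by omega) (disc D a) P' (bcOf P a) _ _ p.j hsh
      (hw a ha0' _ d1 r (r2.trans (min_le_right _ _))) hbox (hP _ d1)
  have k2 := U4.scale ha0' hs hrc p.n p.m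
  rw [Real.dist_eq, sub_zero]
  unfold crit inDom at *
  rw [corr_eq, corr_eq, mul_left_comm, ← mul_sub, abs_mul, abs_of_nonneg (by positivity)]
  refine lt_of_le_of_lt (mul_le_mul_of_nonneg_left k1 (by positivity)) ?_
  rw [← hK, neg_div] at k2
  calc _ = ε / (2 * K) * ((a ^ (-(1 / 8) : ℝ)) ^ p.n * a⁻¹ ^ p.m / r ^ p.m *
        (r : ℝ) ^ (-((p.n : ℝ) / 8))) := by ring
    _ ≤ ε / (2 * K) * K := mul_le_mul_of_nonneg_left k2 (by positivity)
    _ = ε / 2 := by field_simp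
    _ < ε := half_lt_self hε

end IVD

/-- Q1 in the plane and in the domains with convex and reentrant corners, for piecewise constant
boundary conditions. -/
theorem domQ4_of (hW : StepW) (hG : GenJW) (hM : LatStmtW) (hN : LatStmtJW) (hT : RawStmt) :
    DomQ4 := by
  obtain ⟨LX, hX⟩ := boxStmt (bdStmt_of shrStmt) gapStmt
  intro α hα J hJ V hV ε hε
  obtain ⟨LB, hB⟩ := bulkStmt
  obtain ⟨LS, hS⟩ := stateStmt
  obtain ⟨ε₀, hε₀, hW⟩ := hW
  obtain ⟨ε₁, hε₁, hG⟩ := hG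
  obtain ⟨c', hc', hN⟩ := hN
  obtain ⟨ζ, hζ, LG, hG⟩ := hG c' hc'
  have hε₂ : 0 < min ε₀ ε₁ := lt_min hε₀ hε₁
  obtain ⟨LW, hW⟩ := hW _ hε₂ (min_le_left _ _)
  obtain ⟨t₁, hM⟩ := hM α hα
  obtain ⟨LM, hM⟩ := hM _ hε₂
  obtain ⟨t₂, hN⟩ := hN ζ hζ α hα
  obtain ⟨LN, hN⟩ := hN _ hε₂
  obtain ⟨L, hL⟩ : ∃ L, LB + LS + LM + LX + LW + LG + LN + ⌈1 / min ε₀ ε₁⌉₊ ≤ L := ⟨_, le_rfl⟩
  have c1 : 1 ≤ √(min ε₀ ε₁ * L) := by
    refine Real.one_le_sqrt.2 ((div_le_iff₀' hε₂).1 ((Nat.le_ceil _).trans ?_))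
    exact_mod_cast (by omega : ⌈1 / min ε₀ ε₁⌉₊ ≤ L)
  have c2 : √(min ε₀ ε₁ * L) ^ 2 ≤ ε₁ * L := by
    rw [Real.sq_sqrt (by positivity)]
    exact mul_le_mul_of_nonneg_right (min_le_right _ _) (by positivity)
  obtain ⟨t₀, ht⟩ : ∃ t₀, t₀ = t₁ + t₂ := ⟨_, rfl⟩
  obtain ⟨ηB, hηB, hB⟩ := hB L (by omega)
  obtain ⟨ηS, hηS, hS⟩ := hS L (by omega)
  obtain ⟨κ, hκ, hM⟩ := hM L (by omega)
  obtain ⟨κ', hκ', hN⟩ := hN L (by omega)
  obtain ⟨ηX, hηX, hX⟩ := hX L (by omega)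
  obtain ⟨C, hC, hW⟩ := hW L (by omega)
  obtain ⟨hG0, hG⟩ := hG L (by omega) C hC
  obtain ⟨ηM, hηM, hG⟩ := hG (min ε (1 / 2)) (by positivity)
  obtain ⟨η₁, hη₁, hc⟩ : ∃ η₁ > 0, ∀ x : ℝ, |x - tc| ≤ η₁ →
      |-Real.log x / (2 * J) - Kc / J| < ε := by
    have htc : tc ≠ 0 := by
      rw [U4.tc_eq]
      exact (Real.exp_pos _).ne'
    have h1 : ContinuousAt (fun x : ℝ => -Real.log x / (2 * J)) tc :=
      ((Real.continuousAt_log htc).neg).div_const _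
    obtain ⟨δ, hδ, h2⟩ := Metric.continuousAt_iff.1 h1 ε hε
    refine ⟨δ / 2, by positivity, fun x hx => ?_⟩
    have h3 := h2 (x := x) (by rw [Real.dist_eq]; linarith)
    have e : -Real.log tc / (2 * J) = Kc / J := by
      rw [U4.tc_eq, Real.log_exp]
      field_simp
    rwa [Real.dist_eq, e] at h3
  obtain ⟨R₁, hR₁⟩ := U4.exists_R hV
  have hR : ∀ B, V B ≠ 0 → (0, 0) ∈ B → B ∈ potSets (R₁ + t₀) := fun B h1 h2 =>
    ELat.potSets_mono (Nat.le_add_right _ _) (hR₁ B h1 h2)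
  obtain ⟨δS, hδS, hS1⟩ := hS (R₁ + t₀)
  obtain ⟨δ0, hδ0, hS0⟩ := hS 0
  obtain ⟨δM, hδM, hG⟩ := hG (R₁ + t₀)
  obtain ⟨δX, hδX, hX⟩ := hX (R₁ + t₀)
  set η := min (min ηB ηS) (min (min ηM ηX) η₁) with hη
  obtain ⟨κ₀, hκ₀, hB⟩ := hB η (by positivity) ((min_le_left _ _).trans (min_le_left _ _)) V _ hV
    hR (min (min δS 1) (min δM δX)) (by positivity)
  refine ⟨2 * J * κ₀, by positivity, fun lam hlam => ?_⟩
  obtain ⟨x, Z, hq⟩ := hB (lam / (2 * J)) (by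
    rw [abs_div, abs_of_pos (by positivity : 0 < 2 * J), div_lt_iff₀ (by positivity)]
    linarith)
  set q : Par := ⟨V, R₁ + t₀, lam / (2 * J) * (-Real.log x), x, Z⟩ with hqdef
  have hx0 : 0 < x := lt_of_lt_of_le (by norm_num) hq.ok.x_lo
  have hx1 : x < 1 := lt_of_le_of_lt hq.ok.x_hi (by norm_num)
  have hrel : U4.Rel J lam (-Real.log x / (2 * J)) q :=
    { pot := hV
      range := hR
      mu := by
        change lam / (2 * J) * (-Real.log x) = _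
        ring
      x := by
        change x = _
        rw [show -(2 * (-Real.log x / (2 * J)) * J) = Real.log x by field_simp, Real.exp_log hx0]
      st := hS1 q rfl (hq.mono ((min_le_left _ _).trans (min_le_right _ _))
        ((min_le_left _ _).trans (min_le_left _ _))) }
  have hrel0 := U4.rel_zero hJ (hS0 par0 rfl (crit_par0 L ηS δ0 hηS.le hδ0.le))
  obtain ⟨Zσ, Zε, z1, z2, hmain, hU⟩ := hG q rfl
    (hq.mono ((min_le_right _ _).trans ((min_le_left _ _).trans (min_le_left _ _)))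
      ((min_le_right _ _).trans (min_le_left _ _)))
  have hsm : q.Small 1 := le_trans hq.small ((min_le_left _ _).trans (min_le_right _ _))
  have hlat := hM q Zσ Zε R₁ hq.ok hsm (show R₁ + t₁ ≤ R₁ + t₀ by omega) hR₁
    (hU _ _ c1 c2 hW).1 (hG0 t₁ _ _ c1 c2 hW).1
  obtain ⟨Zσ', Zε', hU'⟩ := (hG0 t₂ _ _ c1 c2 hW).2
  have hlatJ := hN q Zσ Zε Zσ' Zε' R₁ hq.ok hsm (show R₁ + t₂ ≤ R₁ + t₀ by omega) hR₁
    (hU _ _ c1 c2 hW).2 hU'
  have hbox := hX q rfl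
    (hq.mono ((min_le_right _ _).trans ((min_le_left _ _).trans (min_le_right _ _)))
      ((min_le_right _ _).trans (min_le_right _ _))) J lam _ hrel
  obtain ⟨μ, hμ, hμ'⟩ := U1.plane_of_torus hJ hV hrel.spin
    fun p hp hn e he => U4.est hJ hrel hrel0 hmain hp hn he
  obtain ⟨z3, z4⟩ := lt_min_iff.1 z1
  obtain ⟨z5, z6⟩ := lt_min_iff.1 z2
  refine ⟨-Real.log x / (2 * J), div_pos (neg_pos.2 (Real.log_neg hx0 hx1)) (by positivity),
    Zσ, Zε, hc x (hq.x.trans ((min_le_right _ _).trans (min_le_right _ _))), z3, z5, ?_, ?_,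
    ⟨μ, hbox μ hμ, hμ, hμ'⟩, fun D hD b hb => ?_⟩
  · rintro rfl
    norm_num at z4
  · rintro rfl
    norm_num at z6
  · rcases hb with rfl | ⟨P, hP, rfl⟩
    · have h := ELat.diff hT hκ hlat hJ hV hrel.mu hrel.x hD (Or.inl rfl)
      exact ⟨h, ident h⟩
    · have h := IVD.diffJ hT hκ' hlatJ hJ hrel.mu hrel.x hD hP
      exact ⟨h, ident h⟩

end Vale.Agent.P144Z
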