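import Vale.Agent.P144D.I.V.DefsL
import Vale.Agent.P144E.Rg.Gen

/-!
# Universality with insertions and corrections for every good class of boundaries
-/

namespace Vale.Agent.P144Z

theorem MainJV.anti {Q : Cls} {q : Par} {Zσ Zε c' η₁ δ δ' : ℝ} {L : ℕ}
    (h : MainJV Q q Zσ Zε L c' η₁ δ) (h1 : δ' ≤ δ) : MainJV Q q Zσ Zε L c' η₁ δ' := fun K => by
  obtain ⟨θ, hθ, h⟩ := h K
  refine ⟨θ, hθ, fun N Λ Γ hΓ => ?_⟩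
  obtain ⟨C, h⟩ := h N Λ Γ hΓ
  refine ⟨C, fun ε hε => ?_⟩
  obtain ⟨J₀, h⟩ := h ε hε
  exact ⟨J₀, fun J hJ M _ P v k s u ν o O a1 a2 ⟨b, a3, a4, a5⟩ =>
    h J hJ M P v k s u ν o O a1 a2 ⟨b, a3, a4, fun x => (a5 x).trans h1⟩⟩

theorem genJW_of (h : MainGenV) : GenJW := by
  obtain ⟨ε₁, hε₁, hG⟩ := h
  obtain ⟨L₂, hE⟩ := enGen
  obtain ⟨C₂, hC₂, hU⟩ := univQ_of
  refine ⟨ε₁, hε₁, fun c' hc' => ?_⟩
  obtain ⟨η', hη', L₁, hG⟩ := hG c' hc'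
  refine ⟨η', hη', max L₁ L₂, fun L hL C₁ hC₁ => ?_⟩
  obtain ⟨η₂, hη₂, hE⟩ := hE L (le_of_max_le_right hL) C₁ hC₁
  have key : ∀ ε > 0, ∃ η > 0, ∀ R : ℕ, ∃ δ > 0, ∀ q : Par, q.R = R → Crit L q η δ →
      ∃ Zσ Zε : ℝ, |Zσ - 1| < ε ∧ |Zε - 1| < ε ∧ MainOK q Zσ Zε ∧ ∀ (Q : Cls) (c : ℝ), 1 ≤ c →
        c ^ 2 ≤ ε₁ * L → Q.Ok L C₁ c → MainQ Q q Zσ Zε L η δ ∧ EnQ Q q L η δ ∧
          UnivJ Q q Zσ Zε L c' η' := fun ε hε => by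
    obtain ⟨η₁, hη₁, hG⟩ := hG L (le_of_max_le_left hL) C₁ hC₁ ε hε
    refine ⟨min η₁ η₂, by positivity, fun R => ?_⟩
    obtain ⟨δ₁, hδ₁, hG⟩ := hG R
    obtain ⟨δ₂, hδ₂, hE⟩ := hE R
    refine ⟨min δ₁ δ₂, by positivity, fun q hR hq => ?_⟩
    obtain ⟨Zσ, Zε, z1, z2, z3, hG⟩ := hG q hR (hq.mono (min_le_left _ _) (min_le_left _ _))
    refine ⟨Zσ, Zε, z1, z2, z3, fun Q c h1 h2 hQ => ?_⟩
    have h3 : EnQ Q q L (min η₁ η₂) (min δ₁ δ₂) :=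
      (hE q hR (hq.mono (min_le_right _ _) (min_le_right _ _)) Q c hQ).anti (min_le_right _ _)
        (min_le_right _ _)
    exact ⟨(hG Q c h1 h2 hQ).1.anti (min_le_left _ _) (min_le_left _ _), h3, _, _,
      by positivity, by positivity, (hG Q c h1 h2 hQ).2.anti (min_le_left _ _), h3⟩
  refine ⟨fun R Q c h1 h2 hQ => ?_, fun ε hε => ?_⟩
  · obtain ⟨η, hη, h⟩ := key 1 one_pos
    obtain ⟨δ, hδ, h⟩ := h R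
    obtain ⟨C₃, hC₃, hU⟩ := hU R
    obtain ⟨Zσ, Zε, -, -, -, h⟩ := h _ rfl (crit_parR L R hη.le hδ.le)
    obtain ⟨k1, k2, k3⟩ := h Q c h1 h2 hQ
    exact ⟨hU Q _ 1 1 η δ L rfl hδ (crit_parR L R (by positivity) (by positivity))
      (k1.parR hη.le hδ.le) k2, Zσ, Zε, k3⟩
  · obtain ⟨η, hη, h⟩ := key ε hε
    refine ⟨η / C₂, by positivity, fun R => ?_⟩
    obtain ⟨δ, hδ, h⟩ := h R
    obtain ⟨C₃, hC₃, hU⟩ := hU R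
    refine ⟨δ / C₃, by positivity, fun q hR hq => ?_⟩
    obtain ⟨Zσ, Zε, z1, z2, z3, h⟩ :=
      h q hR (hq.mono (div_le_self hη.le hC₂) (div_le_self hδ.le hC₃))
    refine ⟨Zσ, Zε, z1, z2, z3, fun Q c h1 h2 hQ => ?_⟩
    obtain ⟨k1, k2, k3⟩ := h Q c h1 h2 hQ
    exact ⟨hU Q q Zσ Zε η δ L hR hδ hq k1 k2, k3⟩

end Vale.Agent.P144Z
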