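import Vale.Agent.P144D.I.O.InitB

/-!
The initial step with insertions and a scalar interaction, in an arbitrary local system.
-/

namespace Vale.Agent.P144Z.IV.V5

open Finset R5 Vale.Agent.P144Z.IO.O5

variable {g : Geo} {B : Type} [NormedCommRing B] [NormedAlgebra ℝ B] {k : ℕ}

/-- The size of a correction. -/
theorem pt_cor {τ γ : ℝ} (hτ : 0 ≤ τ) {v : Cor g.M} {R : ℕ} (hv : v.Le R γ) :
    0 ≤ γ ∧ ∃ b : Finset g.P → ℝ, (∀ X n, |v X n| ≤ b X) ∧ Pt τ b (W.R5.eR τ R * γ) := by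
  obtain ⟨b, h1, h2, h3⟩ := hv
  have h0 : ∀ X, 0 ≤ b X := fun X => (abs_nonneg _).trans (h1 X fun _ => true)
  refine ⟨(sum_nonneg fun X _ => h0 X).trans (h3 0), b, h1, fun y => ?_⟩
  refine le_trans ?_ (mul_le_mul_of_nonneg_left (h3 y) (Real.exp_pos _).le)
  rw [mul_sum]
  refine sum_le_sum fun X hX => ?_
  rw [mul_comm]
  by_cases h5 : b X = 0
  · rw [h5, mul_zero, mul_zero]
  · refine mul_le_mul_of_nonneg_right (Real.exp_le_exp.2 (mul_le_mul_of_nonneg_left ?_ hτ)) (h0 X)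
    exact_mod_cast Nat.add_le_add_left
      (stein_le_of_ball fun x hx => h2 X h5 x hx y (mem_filter.1 hX).2) 1

theorem init_genV [FiniteDimensional ℝ B] (hinj : Function.Injective (NormedSpace.exp : B → B))
    {κ τ : ℝ} (hκ : 0 ≤ κ) (hτ : 0 ≤ τ) {𝓛 : LocSys g.P B} {E : (g.Cfg → B) →ₗ[ℝ] B}
    (hE : IsExp (Z1 g.M) (fB 𝓛) 𝓛 κ E) {a : Tor g.M × Fin 2 → B} (hEx : ∀ F, E F = Ex a F)
    (hg : g.OkW) (hon : ∀ κ, (g.src κ).on = true)
    (hsep : ∀ κ κ', κ ≠ κ' → 8 < tdist (g.src κ).y (g.src κ').y) {s : Fin k → g.P × Fin 4} {K : ℕ}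
    (hss : ∀ i i', i ≠ i' → 2 * K < tdist (s i).1 (s i').1)
    (hsk : ∀ i κ, 8 < tdist (g.src κ).y (s i).1) {c : Finset g.P → g.Cfg → ℝ} {d : Finset g.P → ℝ}
    {δ θ β y o : ℝ} (hc0 : ∀ n, c ∅ n = 0) (hc1 : ∀ X, Dep (edg X) (c X))
    (hc2 : ∀ X n, |c X n| ≤ d X) (hd : Pt (τ + κ + 2) d δ) (ha : 0 ≤ δ) (hθ : 0 ≤ θ)
    (hβ : 0 ≤ β) (hy : |y| ≤ 2) (ho : |o| ≤ 1) {O : Fin k → g.Cfg → ℝ}
    (hO : LocO s K O) (hOo : ∀ i n, |O i n - o| ≤ θ) (b : g.K → B) (e : Fin k → B)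
    (hb : ∀ κ, b κ * b κ = 0) (he : ∀ i, e i * e i = 0)
    (hbm : ∀ κ X, (g.src κ).y ∈ X → b κ ∈ 𝓛.sub X ∧ 𝓛.p X (b κ) ≤ β)
    (hem : ∀ i X, (s i).1 ∈ X → e i ∈ 𝓛.sub X ∧ 𝓛.p X (e i) ≤ β)
    (hsm : Real.exp ((τ + κ + 2) * (1 + (9 : ℕ))) * (2 * β) ≤ 1 / 96)
    (hC : δ + W.R5.eR (τ + κ + 2) K * θ ≤ 1 / 96)
    {H H' : Finset g.P → g.Cfg → B}
    (hH' : ∀ X n, H' X n = c X n • 1 +
      ∑ κ ∈ univ.filter (fun κ => g.put (g.src κ).y (g.src κ).Y = X),
        (g.src κ).O (g.see (g.src κ).y n) • b κ)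
    (hH : ∀ X n, H X n = H' X n + ∑ i ∈ univ.filter (fun i => {(s i).1} = X), (y * o) • e i +
      ∑ i ∈ univ.filter (fun i => ball (s i).1 K = X), (y * (O i n - o)) • e i) :
    NormedSpace.exp (∑ U, Cl E H U) = E (NormedSpace.exp (∑ X, H X)) ∧
      Anch 8 τ (fun U => 𝓛.p U (Cl E H U - Cl E H' U -
        ∑ i ∈ univ.filter (fun i => {(s i).1} = U), (y * o) • e i))
        (20000 * δ + 20000 * W.R5.eR (τ + κ + 2) K * θ) := by
  have hσ : 0 ≤ τ + κ + 2 := by positivity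
  have hr := fun κ => mem_put_on (hg.src κ) (hon κ)
  have hb' := mul_nonneg (zero_le_one.trans (W.R5.one_le_eR hσ K)) hθ
  have hβ1 : 2 * β ≤ 1 := by
    have h1 : 1 ≤ Real.exp ((τ + κ + 2) * (1 + (9 : ℕ))) := Real.one_le_exp (by positivity)
    exact (le_mul_of_one_le_left (by positivity) h1).trans (hsm.trans (by norm_num))
  have hball : ∀ i, (s i).1 ∈ ball (s i).1 K := fun i => G.mem_ball.2 (by rw [tdist_self]; omega)
  have hsq : ∀ m, Sum.elim b e m * Sum.elim b e m = 0 := by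
    rintro (κ | i)
    exacts [hb κ, he i]
  have key := abs_init (H := H) (H' := H') hinj hκ hτ hE (suI g s)
    (fun m n => cfI g k (y * o) m n • Sum.elim b e m) ?_ ?_ ?_
    (fun m => funext fun n => by
      rw [Pi.mul_apply, smul_mul_smul_comm, hsq, smul_zero, Pi.zero_apply]) (fun m => ?_)
    (c := 9) ?_ (β := 2 * β) (by positivity) ?_ hsm (A := fun X n => c X n • 1)
    (Q := fun X => ∑ i ∈ univ.filter (fun i => ball (s i).1 K = X),
      fun n => (y * (O i n - o)) • e i)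
    (funext fun n => by rw [hc0, zero_smul, Pi.zero_apply])
    (fam_empty (fun i => ⟨_, hball i⟩) _) (fun X => mem_fB (hc1 X) (one_mem _)) ?_ ha hb' ?_ ?_
    hC ?_ ?_
  · refine ⟨key.1, anch_mono (key.2.anch hτ fun _ => 𝓛.p_nonneg _ _) (fun U => le_of_eq ?_)
      (by linarith)⟩
    congr 2
    refine sum_congr rfl fun i _ => ?_
    rw [hEx]
    exact (Ex_const _ _).symm
  · rintro (κ | i)
    exacts [⟨_, (hr κ).1⟩, singleton_nonempty _]
  · rintro (κ | i)
    · exact mem_fB (fun n n' hn => (hg.src κ).dep _ _ (see_congr hn)) (hbm κ _ (hr κ).1).1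
    · exact mem_fB (fun n n' _ => rfl) (hem i _ (mem_singleton_self _)).1
  · rintro (κ | i) (κ' | i') hne x hx hx'
    · have a1 := hsep κ κ' fun e => hne (congrArg _ e)
      have a2 := (hr κ).2.2 x hx
      have a3 := (hr κ').2.2 x hx'
      have a4 := tdist_triangle (g.src κ).y x (g.src κ').y
      rw [tdist_comm] at a2
      omega
    · have a1 := hsk i' κ
      have a2 := (hr κ).2.2 x hx
      rw [mem_singleton.1 hx', tdist_comm] at a2
      omega
    · have a1 := hsk i κ'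
      have a2 := (hr κ').2.2 x hx'
      rw [mem_singleton.1 hx, tdist_comm] at a2
      omega
    · have a1 := hss i i' fun e => hne (congrArg _ e)
      rw [← mem_singleton.1 hx, ← mem_singleton.1 hx', tdist_self] at a1
      omega
  · have h3 : (fun n => cfI g k (y * o) m n • Sum.elim b e m) =
        fun n => Sum.elim b e m * (cfI g k (y * o) m n • 1) :=
      funext fun n => by rw [mul_smul_comm, mul_one]
    rw [hEx, h3, Ex_const_mul, mul_mul_mul_comm, hsq, zero_mul]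
  · rintro (κ | i)
    · exact stein_le_of_ball (hr κ).2.2
    · exact (stein_singleton _).le.trans (Nat.zero_le _)
  · rintro (κ | i)
    · exact fB_le (fun n => ((hg.src κ).bd _).trans one_le_two) (hbm κ _ (hr κ).1).2
    · refine fB_le (fun n => ?_) (hem i _ (mem_singleton_self _)).2
      change |y * o| ≤ 2
      rw [abs_mul]
      exact (mul_le_of_le_one_right (abs_nonneg _) ho).trans hy
  · refine fun X => sum_mem fun i hi => ?_
    rw [← (mem_filter.1 hi).2]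
    refine mem_fB (fun n n' hn => ?_) (hem i _ (hball i)).1
    rw [hO i n n' fun e a1 a2 => hn e (mem_edg.2 ⟨a1, a2⟩)]
  · exact hd.mono (fun X => (fB_le (hc2 X) (𝓛.p_one X)).trans (mul_one _).le) le_rfl
  · refine pt_fam hσ (fun i => ball (s i).1 K) _ (fun i i' hne x hx hx' => ?_)
      (fun i => stein_le_of_ball fun x hx => G.mem_ball.1 hx) hθ fun i => ?_
    · have a1 := hss i i' hne
      have a2 := G.mem_ball.1 hx
      have a3 := G.mem_ball.1 hx'
      have a4 := tdist_triangle (s i).1 x (s i').1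
      rw [tdist_comm] at a2
      omega
    · refine (fB_le (a := 2 * θ) (fun n => ?_) (hem i _ (hball i)).2).trans (by nlinarith)
      rw [abs_mul]
      exact mul_le_mul hy (hOo i n) (abs_nonneg _) zero_le_two
  · intro X
    funext n
    rw [fam_sum, hH, hH']
    simp only [Pi.add_apply, Finset.sum_apply]
    rw [add_assoc (c X n • 1), add_right_comm]
    rfl
  · intro X
    funext n
    rw [hH']
    simp only [Pi.add_apply, Finset.sum_apply]
    rfl

end Vale.Agent.P144Z.IV.V5
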