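import Vale.Agent.P144D.I.Blocks
import Vale.Agent.P144D.I.V.LMain
import Vale.Agent.P144D.I.V.Main
import Vale.Agent.P144D.I.V.GenJ
import Vale.Agent.P144D.I.V.Dom
import Vale.Agent.P144D.I.V.Sec
import Vale.Agent.P144D.I.V.Tilt
import Vale.Agent.P144D.I.V.Bc
import Vale.Agent.P144D.I.V.Deep
import Vale.Agent.P144E.An1.Hol
import Vale.Agent.P144E.An2.Dec
import Vale.Agent.P144E.An3.Shr
import Vale.Agent.P144E.An3.Tele
import Vale.Agent.P144E.An4a.Lev
import Vale.Agent.P144E.An4b.Main
import Vale.Agent.P144E.Ge1a.Main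
import Vale.Agent.P144E.Ge1b.Gap
import Vale.Agent.P144E.Ge1b.K
import Vale.Agent.P144E.Ge3.Dig
import Vale.Agent.P144E.Ge4.Main
import Vale.Agent.P144E.Rg.Step
import Vale.Agent.P144E.Tilt.Half

/-!
Universality in domains with convex and reentrant corners and with sign changes of the boundary
condition.
-/

namespace Vale.Agent.P144Z

theorem bdStmtW : BdStmtW := bdStmtW_of (levS_of flatW) (shrH_of (decH_of holS) teleH flatW)

theorem digStmt : DigStmt := digStmt_of tipFar tipConn

theorem domQ4 : DomQ4 :=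
  domQ4_of stepW (genJW_of IV.mainGenV)
    (latStmtW_of bdStmtW (kStmtW_of gapW) holesW digStmt (halfStmt_of spStmt tiltStmt))
    (latStmtJW_of mkStmt lbStmt markStmt secA secW tiltP digBc deepD bdStmtW gapW holesW digStmt)
    rawStmt

end Vale.Agent.P144Z
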