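import Vale.Agent.P144D.I.V.Defs
import Vale.Agent.P144E.Defs

/-!
Sign changes of the boundary condition in domains with reentrant corners: the blocks.
-/

namespace Vale.Agent.P144Z

open Finset Matrix

/-- The boundary condition of the dug set; the marked points are far from the tips. -/
def DigBc : Prop :=
  ∀ α > (0 : ℝ), ∀ t : ℕ, ∃ Q : ℕ, 1 ≤ Q ∧ ∃ κ₀ > (0 : ℝ), ∀ κ, 0 < κ → κ ≤ κ₀ → ∀ α' κ' : ℝ,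
    0 < κ' → κ' ≤ κ → ∀ (Λ P : Finset (ℤ × ℤ)) (b : ℤ × ℤ → Bool) (r : ℕ), RawZ Λ P α κ r →
    BcZ Λ b α' κ' r → Q ≤ r → (∃ b₁ : ℤ × ℤ → Bool, (∀ v, v ∉ Λ → b₁ v = b v) ∧
      BcZ (dig Λ P t) b₁ α' κ' (r / Q) ∧
      ∀ p ∈ P, ∀ v, zd v p ≤ r / Q → v ∉ dig Λ P t → b₁ v = b₁ p) ∧
      ∀ p ∈ P, ∀ (x : ℤ × ℤ) (e : Fin 4) (ρ : ℕ), Q ≤ ρ → ρ ≤ r / Q →
        MkZ (dig Λ P t) κ' ρ x e → ρ / Q < zd x p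

/-- The dug sets have deep points. -/
def DeepD : Prop :=
  ∀ α > (0 : ℝ), ∀ t N : ℕ, ∃ C Q : ℕ, 1 ≤ Q ∧ ∃ κ₀ > (0 : ℝ), ∀ κ, 0 < κ → κ ≤ κ₀ →
    ∀ (Λ P : Finset (ℤ × ℤ)) (r r' T : ℕ), RawZ Λ P α κ r → (∀ v ∈ Λ, zd v 0 ≤ T) →
    (∀ (M : ℕ) [NeZero M], 4 * (T + r) ≤ M → Rgh ((dig Λ P t).image (prj M)) N r') → r' ≤ r →
    Q ≤ r' → DeepOK (dig Λ P t) C (r' / Q)

open Classical in
/-- The Gibbs measure with boundary condition `b` in terms of the contours of the dug set. -/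
def SecW : Prop :=
  ∀ R K t : ℕ, ∃ (K' : ℕ) (C : ℝ), 1 ≤ C ∧ ∀ (J lam β : ℝ) (q : Par) (R₁ : ℕ), UL.Rel J lam β q →
    q.R ≤ R → R₁ ≤ R → (∀ B, q.V B ≠ 0 → (0, 0) ∈ B → B ∈ potSets R₁) → 1 / 4 ≤ q.x →
    q.x ≤ 1 / 2 → q.Small 1 → ∀ (M : ℕ) [NeZero M] (Λ P : Finset (ℤ × ℤ)) (T k : ℕ)
    (x : Fin k → ℤ × ℤ) (e : Fin k → Fin 4) (b b₁ b' : ℤ × ℤ → Bool), (∀ v ∈ Λ, zd v 0 ≤ T) →
    (∀ p ∈ P, zd p 0 ≤ T) → 4 * (T + K' + 2) ≤ M →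
    (∀ i, Touch (dig Λ P t) (x i) ∧ RemE (dig Λ P t) (x i) (e i + 2)) →
    (∀ i i', i ≠ i' → 2 * K' < zd (x i) (x i')) → MkB (dig Λ P t) b₁ b' (2 * R + 4) K x e →
    (∀ v, v ∉ Λ → b₁ v = b v) → (∀ p ∈ P, ∀ p' ∈ P, p ≠ p' → 2 * K' < zd p p') →
    (∀ p ∈ P, ∀ v, zd v p ≤ K' → v ∉ dig Λ P t → b₁ v = b₁ p) →
    (∀ p ∈ P, ∀ i, 2 * K' < zd (x i) p) →
    ∃ (O : Fin k → (Tor M × Fin 2 → Bool) → ℝ) (O' : ℤ × ℤ → (Tor M × Fin 2 → Bool) → ℝ),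
      LocO (mkS M x e) K' O ∧ (∀ i n, C⁻¹ ≤ O i n ∧ O i n ≤ C) ∧ LocE P (t + R₁ + 2) O' ∧
      (∀ p n, C⁻¹ ≤ O' p n ∧ O' p n ≤ C) ∧ ∀ F : P144.Config → ℝ,
        (∀ σ σ', (∀ v ∈ dig Λ P t, σ v = σ' v) → F σ = F σ') →
        P144.gibbs J lam q.V β (some b) Λ F =
          (∑ σ : Tor M → Bool, if OutB ((dig Λ P t).image (prj M)) b' σ then
            F (per M σ) * (∏ p ∈ P, O' p (nOf ((dig Λ P t).image (prj M)) σ)) *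
              wJ q ((dig Λ P t).image (prj M)) O σ else 0) /
          ∑ σ : Tor M → Bool, if OutB ((dig Λ P t).image (prj M)) b' σ then
            (∏ p ∈ P, O' p (nOf ((dig Λ P t).image (prj M)) σ)) *
              wJ q ((dig Λ P t).image (prj M)) O σ else 0

/-- A product of local observables is, contour by contour, a combination of small corrections. -/
def TiltP : Prop :=
  ∀ (C θ : ℝ) (k₀ : ℕ), 1 ≤ C → 0 < θ → ∃ B : ℝ, ∀ q : Par, 0 < q.x → ∀ (M : ℕ) [NeZero M]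
    (Λ P : Finset (ℤ × ℤ)) (T K : ℕ) (O : ℤ × ℤ → (Tor M × Fin 2 → Bool) → ℝ),
    (∀ v ∈ Λ, zd v 0 ≤ T) → (∀ p ∈ P, zd p 0 ≤ T ∧ ∀ v, zd v p ≤ 1 → v ∉ Λ) →
    (∀ p ∈ P, ∀ p' ∈ P, p ≠ p' → 2 * K < zd p p') → P.card ≤ k₀ → K ≤ q.R + 1 →
    4 * (T + K + q.R + 2) ≤ M → LocE P K O → (∀ p n, C⁻¹ ≤ O p n ∧ O p n ≤ C) →
    ∃ (u : Finset (ℤ × ℤ) → Cor M) (c : Finset (ℤ × ℤ) → ℝ),
      (∀ U, (u U).Ok ∧ (u U).Off (pwI (Λ.image (prj M))) ∧ (u U).Le (2 * q.R + 2) θ) ∧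
      ∑ U ∈ P.powerset, |c U| ≤ B ∧ ∀ n, (∏ p ∈ P, O p n) / Zw q (pwI (Λ.image (prj M))) 1 =
        ∑ U ∈ P.powerset,
          c U * (Real.exp (∑ X, u U X n) / ZwC q (u U) (pwI (Λ.image (prj M))) 1)

/-- The main estimates with insertions hold for small corrections. -/
def UnivJ (Q : Cls) (q : Par) (Zσ Zε : ℝ) (L : ℕ) (c' η₁ : ℝ) : Prop :=
  ∃ γ δ : ℝ, 0 ≤ γ ∧ 0 < δ ∧ MainJV Q q Zσ Zε L c' η₁ δ ∧ EnQ Q q L γ δ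

/-- Universality for every good class, with the constants of the plane. -/
def GenJW : Prop :=
  ∃ ε₁ > (0 : ℝ), ∀ c' : ℝ, 1 ≤ c' → ∃ η₁ > (0 : ℝ), ∃ L₀ : ℕ, ∀ L ≥ L₀, ∀ C₁ : ℝ, 1 ≤ C₁ →
    (∀ (R : ℕ) (Q : Cls) (c : ℝ), 1 ≤ c → c ^ 2 ≤ ε₁ * L → Q.Ok L C₁ c →
      UnivQ Q (parR R) 1 1 L ∧ ∃ Zσ Zε : ℝ, UnivJ Q (parR R) Zσ Zε L c' η₁) ∧
    ∀ ε > 0, ∃ η₀ > 0, ∀ R : ℕ, ∃ δ₀ > 0, ∀ q : Par, q.R = R → Crit L q η₀ δ₀ →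
      ∃ Zσ Zε : ℝ, |Zσ - 1| < ε ∧ |Zε - 1| < ε ∧ MainOK q Zσ Zε ∧
        ∀ (Q : Cls) (c : ℝ), 1 ≤ c → c ^ 2 ≤ ε₁ * L → Q.Ok L C₁ c →
          UnivQ Q q Zσ Zε L ∧ UnivJ Q q Zσ Zε L c' η₁

open P144 in
/-- Universality for finite sets of sites with piecewise constant boundary condition. -/
def LatOKJW (q : Par) (Zσ Zε α κ : ℝ) : Prop :=
  ∀ J lam β : ℝ, 0 < J → q.μ = β * lam → q.x = Real.exp (-(2 * β * J)) → ∀ α' κ' : ℝ, 0 < κ' →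
    κ' ≤ κ → 100 * κ' ≤ α' → ∀ n m Λ₀ : ℕ, ∀ ε > 0, ∃ r₀ : ℕ, ∀ r ≥ r₀, ∀ (Λ P : Finset Site)
      (b : Config) (x : Fin n → Site) (y : Fin m → Site) (j : Fin m → Fin 2), RawZ Λ P α κ r →
      BcZ Λ b α' κ' r → (∀ v ∈ Λ, zd v 0 ≤ Λ₀ * r) → Spins Λ r (Sum.elim x y) →
        |lcor (gibbs J lam q.V β (some b) Λ) x y j -
          Zσ ^ n * Zε ^ m * lcor (gibbs J 0 (fun _ => 0) (Kc / J) (some b) Λ) x y j| ≤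
          ε * (r : ℝ) ^ (-((n : ℝ) / 8)) / (r : ℝ) ^ m

/-- Universality on the lattice. -/
def LatStmtJW : Prop :=
  ∃ c' : ℝ, 1 ≤ c' ∧ ∀ η₁ > (0 : ℝ), ∀ α > (0 : ℝ), ∃ t₀ : ℕ, ∀ ε₀ > (0 : ℝ), ∃ L₀ : ℕ,
    ∀ L ≥ L₀, ∃ κ > (0 : ℝ), ∀ (q : Par) (Zσ Zε Zσ' Zε' : ℝ) (R₁ : ℕ), q.Ok → q.Small 1 →
    R₁ + t₀ ≤ q.R → (∀ B, q.V B ≠ 0 → (0, 0) ∈ B → B ∈ potSets R₁) →
    UnivJ (QW L ε₀) q Zσ Zε L c' η₁ → UnivJ (QW L ε₀) (parR t₀) Zσ' Zε' L c' η₁ →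
      LatOKJW q Zσ Zε α κ

open P144 in
/-- Q1 in the plane and in the domains of the class `TameW α`, with the same constants. -/
def DomQ4 : Prop :=
  ∀ α > 0, ∀ J > 0, ∀ V, IsPotential V → ∀ ε > 0, ∃ lam₀ > 0, ∀ lam : ℝ, |lam| < lam₀ →
    ∃ β > 0, ∃ Zσ Zε : ℝ, |β - Kc / J| < ε ∧ |Zσ - 1| < ε ∧ |Zε - 1| < ε ∧ Zσ ≠ 0 ∧ Zε ≠ 0 ∧
      (∃ μ, IsPlaneState J lam V β μ ∧ IsTorusState J lam V β μ ∧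
        ∀ E₀, PlaneFam J 0 (fun _ => 0) (Kc / J) E₀ →
          Diff Set.univ E₀ (famOf μ) Zσ Zε ∧ Identity Set.univ E₀ (famOf μ) Zσ Zε) ∧
      ∀ D, TameW α D → ∀ b, SignBC D b → Diff D (crit J D b) (inDom J lam V β D b) Zσ Zε ∧
        Identity D (crit J D b) (inDom J lam V β D b) Zσ Zε

end Vale.Agent.P144Z
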