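import Vale.Agent.P144D.I.V.LSec

/-!
The sums over sectors with a weight are those of the nearest-neighbour model up to factors.
-/

namespace Vale.Agent.P144Z.IVL

open Finset Matrix P144 UL ILat

/-- The geometric data. -/
structure GD (Q : Cls) (L J Λ₁ : ℕ) (Γ c' η₁ : ℝ) (M : ℕ) [NeZero M] (Λ : Finset Site) (T ρ : ℕ)
    {H k : ℕ} (a : Site) (hs : Fin H → Site) (s : Fin k → Tor M × Fin 4)
    (u : Fin k → ℕ → Tor M × Fin 4 → ℝ) (ν : Fin k → ℕ → ℝ) : Prop where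
  holes : Holes Λ T ρ a hs
  dat : MkDat (pwI (Λ.image (prj M))) s u ν L J c' η₁
  lo : 17 * sc L J ≤ ρ
  le : ρ ≤ T
  hi : T ≤ Λ₁ * sc L J
  eq : M = 64 * T
  bd : ∀ B, Str (pwI (Λ.image (prj M))) B (ρ - 1) → Q M (pwI (Λ.image (prj M)) * B) J
  gap : ∀ B, Str (pwI (Λ.image (prj M))) B (ρ - 1) → (∀ e, T + 1 < tdist e.1 0 → B e = 1) →
    ∀ φ, φ ⬝ᵥ φ ≤ (Γ * sc L J) ^ 2 * ((Dm (pwI (Λ.image (prj M)) * B) *ᵥ φ) ⬝ᵥ
      (Dm (pwI (Λ.image (prj M)) * B) *ᵥ φ))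

variable {Q : Cls} {L : ℕ} {q : Par} {Zσ Zε c' η₁ γ δ : ℝ}

theorem GD.domQ {J Λ₁ M : ℕ} [NeZero M] {Γ : ℝ} {Λ : Finset Site} {T ρ H k : ℕ} {a : Site}
    {hs : Fin H → Site} {s : Fin k → Tor M × Fin 4} {u : Fin k → ℕ → Tor M × Fin 4 → ℝ}
    {ν : Fin k → ℕ → ℝ} (G : GD Q L J Λ₁ Γ c' η₁ M Λ T ρ a hs s u ν) (hL : 2 ≤ L) {n m N : ℕ}
    {x : Fin n → Site} {y : Fin m → Site} (j : Fin m → Fin 2) (h2 : Spins Λ ρ (Sum.elim x y))
    (hN : n + H + 1 + m ≤ N) (t : Finset (Fin m)) (S : Finset (Fin H)) :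
    DomQ Q (pwI (Λ.image (prj M))) (spinG M a x * holeG M a hs S) (fun i : t => yE M y j i)
      (fun i : t => dE y j i) n L J N (64 * Λ₁) Γ ∧ ∀ φ, φ ⬝ᵥ φ ≤ (Γ * sc L J) ^ 2 *
        ((Dm (pwI (Λ.image (prj M)) * (spinG M a x * holeG M a hs S)) *ᵥ φ) ⬝ᵥ
          (Dm (pwI (Λ.image (prj M)) * (spinG M a x * holeG M a hs S)) *ᵥ φ)) := by
  have l1 : 8 * J + 8 ≤ sc L J := sc_ge hL
  have r1 := G.lo
  have r2 := G.le
  have hMT := G.eq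
  have r4 : 8 * sc L J ≤ ρ - 3 := by omega
  have hx : Spins Λ ρ x := h2.comp Sum.inl_injective
  have hxy : Spins Λ ρ (Sum.elim x fun i : t => y i) := by
    have := h2.comp (f := Sum.map id fun i : t => i.1)
      (Function.injective_id.sumMap Subtype.val_injective)
    rwa [Sum.elim_comp_map] at this
  obtain ⟨s1, s2, -, -, s5, s6⟩ := str_reg (M := M) (fr := false) S G.holes hx (by simp) (by omega)
    (by omega)
  have b0 := G.bd 1 (str_one _ _)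
  have g0 := G.gap 1 (str_one _ _) fun _ _ => rfl
  rw [mul_one] at b0 g0
  have sp := sepW_reg (M := M) (fr := false) S (fun i : t => j i) J G.holes hxy (by simp)
    (by omega) (by omega)
  have cd : t.card ≤ m := by simpa using card_le_univ t
  exact ⟨{
    P_ok := (regOf M Λ false).isP
    str := s1.mono (by omega)
    sep := ⟨fun f hf f' h' h'' => sp.ff f hf f' h' (h''.trans r4),
      fun k f hf => sp.fs k f (hf.trans r4), fun k k' hk => r4.trans_lt (sp.ss k k' hk)⟩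
    lo := by omega
    hi := by rw [hMT, mul_assoc]; exact Nat.mul_le_mul_left _ G.hi
    bd := G.bd _ s1
    bd0 := b0
    gap := g0
    card := by rw [Fintype.card_coe]; omega
    cnt := s6 }, G.gap _ s1 s2⟩

theorem coreV (hL : 2 ≤ L) (hM : MainJV Q q Zσ Zε L c' η₁ δ) (K : ℕ) : ∃ θ > 0,
    ∀ (n m N Λ₁ : ℕ) (Γ : ℝ), 1 ≤ Γ → ∃ B : ℝ, ∀ ε > 0, ∃ J₀ : ℕ, ∀ J ≥ J₀, ∀ (M : ℕ) [NeZero M]
      (Λ : Finset Site) (T ρ H k : ℕ) (a : Site) (hs : Fin H → Site) (s : Fin k → Tor M × Fin 4)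
      (u : Fin k → ℕ → Tor M × Fin 4 → ℝ) (ν : Fin k → ℕ → ℝ) (e : Finset (Fin H) → ℝ)
      (ς : Site → ℝ), GD Q L J Λ₁ Γ c' η₁ M Λ T ρ a hs s u ν → n + H + 1 + m + k ≤ N → IsSign e →
      IsSign ς → ∀ (v : Cor M) (o : ℝ) (O : Fin k → (Tor M × Fin 2 → Bool) → ℝ), v.Ok →
      v.Off (pwI (Λ.image (prj M))) → v.Le (2 * q.R + 2) δ → LocO s K O → |o| ≤ 1 →
      (∀ i n, |O i n - o| ≤ θ) → ∃ z : Fin k → ℝ, (∀ i, |z i - o| ≤ 1 / 2) ∧ ∀ n' ≤ n,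
        ∀ (x : Fin n' → Site) (y : Fin m → Site) (j : Fin m → Fin 2),
        Spins Λ ρ (Sum.elim x y) → ∀ t : Finset (Fin m),
        |(wS (sc L J) (∏ i, ν i J) n' t.card)⁻¹ *
          ((∏ i, ς (x i)) * mxV q v (Λ.image (prj M)) a hs e s O y j x t) - (∏ i, z i) *
          (Zσ ^ n' * Zε ^ t.card *
            fS (Λ.image (prj M)) a hs s e ς y j (sc L J) (∏ i, ν i J) par0 1 x t)| ≤ ε ∧
        |fS (Λ.image (prj M)) a hs s e ς y j (sc L J) (∏ i, ν i J) par0 1 x t| ≤ B := by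
  obtain ⟨θ, hθ, hM⟩ := hM K
  refine ⟨θ, hθ, fun n m N Λ₁ Γ hΓ => ?_⟩
  choose CK hCK hK using plus_K
  set CS := ∑ i ∈ range (n + 1), CK i with hCS
  have cs0 : 0 ≤ CS := sum_nonneg fun i _ => hCK i
  obtain ⟨B, hM⟩ := hM N (64 * Λ₁) Γ hΓ
  refine ⟨2 ^ N * (|B| * CS), fun ε hε => ?_⟩
  obtain ⟨J₀, hM⟩ := hM (ε / 2 ^ N / (CS + 1)) (by positivity)
  refine ⟨J₀, fun J hJ M _ Λ T ρ H k a hs s u ν e ς G hN he hς v o O v1 v2 v3 hO ho hθ' => ?_⟩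
  obtain ⟨z, hz, hM⟩ := hM J hJ M _ v k s u ν o O v1 v2 v3 (by omega) G.dat hO ho hθ'
  refine ⟨z, hz, fun n' hn x y j h2 t => ?_⟩
  have l1 : 8 * J + 8 ≤ sc L J := sc_ge hL
  have r1 := G.lo
  have r2 := G.le
  have hMT := G.eq
  have ν0 : 0 < ∏ i, ν i J := prod_pos fun i _ => (G.dat.ch i).nu_pos le_rfl
  have l0 : (0 : ℝ) < sc L J := by exact_mod_cast (by omega : 0 < sc L J)
  have w0 : 0 < wS (sc L J) (∏ i, ν i J) n' t.card := by unfold wS; positivity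
  have e1 : ∀ u : ℝ, u / (sc L J : ℝ) ^ t.card * (CS * (sc L J : ℝ) ^ (-((n' : ℝ) / 8)) *
      ∏ i, ν i J) = u * CS * wS (sc L J) (∏ i, ν i J) n' t.card := fun u => by
    unfold wS
    ring
  have key := fun S : Finset (Fin H) => by
    obtain ⟨d1, d2⟩ := G.domQ hL j h2 (by omega : n' + H + 1 + m ≤ N) t S
    have k2 := hK n' M Λ T ρ H x a hs S G.holes (h2.comp Sum.inl_injective) (by omega) (by omega)
    have k3 : CK n' * (ρ : ℝ) ^ (-((n' : ℝ) / 8)) ≤ CS * (sc L J : ℝ) ^ (-((n' : ℝ) / 8)) :=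
      mul_le_mul (single_le_sum (fun i _ => hCK i) (mem_range.2 (by omega)))
        (Vale.Agent.P144Z.K.rpow_le (by omega) (by omega) n') (by positivity) cs0
    have := hM _ t _ _ n' _ d1 d2 (k2.trans (mul_le_mul_of_nonneg_right k3 (abs_nonneg _)))
    rw [Fintype.card_coe, e1, e1] at this
    exact this
  have w3 : ε / 2 ^ N / (CS + 1) * CS ≤ ε / 2 ^ N := by
    rw [div_mul_eq_mul_div, div_le_iff₀ (by linarith)]
    exact mul_le_mul_of_nonneg_left (by linarith) (by positivity)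
  refine ⟨le_trans (le_of_eq (congrArg _ ?_)) ((sum_le (H₀ := N) (by omega) he w0 (abs_sign hς x)
    w3 (by positivity) fun S => (key S).1).trans (le_of_eq (by field_simp))),
    sum_le (by omega) he w0 (abs_sign hς x) (mul_le_mul_of_nonneg_right (le_abs_self B) cs0)
      (by positivity) fun S => (key S).2⟩
  simp only [fS, mxJ, mxV, mul_sub, sum_sub_distrib, mul_sum]
  exact congrArg _ (sum_congr rfl fun S _ => by ring)

theorem le_zero {M : ℕ} [NeZero M] (R : ℕ) (hγ : 0 ≤ γ) : (0 : Cor M).Le R γ :=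
  ⟨0, fun _ _ => by simp, fun _ h => absurd rfl h, fun _ => by simpa using hγ⟩

theorem enV (hL : 2 ≤ L) (hE : EnQ Q q L γ δ) (hγ : 0 ≤ γ) (hδ : 0 ≤ δ) (m N Λ₁ : ℕ) {Γ : ℝ}
    (hΓ : 1 ≤ Γ) : ∀ ε > 0, ∃ J₀ : ℕ, ∀ J ≥ J₀, ∀ (M : ℕ) [NeZero M]
      (Λ : Finset Site) (T ρ H k : ℕ) (a : Site) (hs : Fin H → Site) (s : Fin k → Tor M × Fin 4)
      (u : Fin k → ℕ → Tor M × Fin 4 → ℝ) (ν : Fin k → ℕ → ℝ),
      GD Q L J Λ₁ Γ c' η₁ M Λ T ρ a hs s u ν → H + 1 + m ≤ N → ∀ v : Cor M, v.Ok →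
      v.Off (pwI (Λ.image (prj M))) → v.Le (2 * q.R + 2) δ → ∀ (y : Fin m → Site)
        (j : Fin m → Fin 2), Spins Λ ρ (Sum.elim Fin.elim0 y : Fin 0 ⊕ Fin m → Site) → ∀ i,
        |sc L J * (enC q v (pwI (Λ.image (prj M))) (yE M y j i) (dE y j i) -
          enC q 0 (pwI (Λ.image (prj M))) (yE M y j i) (dE y j i))| ≤ ε := by
  intro ε hε
  obtain ⟨J₀, hE⟩ := hE N (64 * Λ₁) Γ hΓ ε hε
  refine ⟨J₀, fun J hJ M _ Λ T ρ H k a hs s u ν G hN v v1 v2 v3 y j h2 i => ?_⟩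
  rw [abs_mul, Nat.abs_cast]
  exact hE J hJ M _ _ v 0 _ _ _ 0 (G.domQ hL j h2 (by omega) {i} ∅).1 v1
    ⟨0, v, (zero_add _).symm, le_zero _ hγ, v3⟩ v2 (Cor.ok_zero _)
    ⟨0, 0, (zero_add _).symm, le_zero _ hγ, le_zero _ hδ⟩ (fun _ _ _ => rfl)
    ⟨i, mem_singleton_self i⟩

theorem tilt_est {m : ℕ} (t : Finset (Fin m)) {X : Finset (Fin m) → ℝ} {d : Fin m → ℝ}
    {G A ε : ℝ} (hε : 0 ≤ ε) (hε1 : ε ≤ 1) (hd : ∀ i, |d i| ≤ ε) (hX : ∀ t', |X t'| ≤ A)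
    (h : |X t - G| ≤ ε) :
    |∑ t' ∈ t.powerset, (∏ i ∈ t \ t', d i) * X t' - G| ≤ ε + 2 ^ m * (ε * A) := by
  have A0 : 0 ≤ A := (abs_nonneg _).trans (hX t)
  rw [← add_sum_erase _ _ (mem_powerset_self t), sdiff_self, bot_eq_empty, prod_empty, one_mul,
    add_sub_right_comm]
  refine (abs_add_le _ _).trans (add_le_add h ((abs_sum_le_sum_abs _ _).trans
    ((sum_le_card_nsmul _ _ (ε * A) fun t' ht => ?_).trans ?_)))
  · obtain ⟨h1, h2⟩ := mem_erase.1 ht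
    obtain ⟨i, hi⟩ := sdiff_nonempty.2 fun h3 => h1 ((mem_powerset.1 h2).antisymm h3)
    rw [abs_mul, abs_prod, ← mul_prod_erase _ _ hi]
    exact mul_le_mul ((mul_le_of_le_one_right (abs_nonneg _) (prod_le_one
      (fun _ _ => abs_nonneg _) fun i _ => (hd i).trans hε1)).trans (hd i)) (hX t')
      (abs_nonneg _) hε
  · rw [nsmul_eq_mul]
    refine mul_le_mul_of_nonneg_right ?_ (by positivity)
    have := card_le_univ (t.powerset.erase t)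
    rw [Fintype.card_finset, Fintype.card_fin] at this
    exact_mod_cast this

end Vale.Agent.P144Z.IVL
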