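import Vale.Agent.P144D.I.V.LSide
import Vale.Agent.P144E.Lat.Main

/-!
The correlations of a set with sign changes in terms of the weighted moments of the dug set.
-/

namespace Vale.Agent.P144Z.IVL

open Finset Matrix P144 UL ILat

theorem half {Q : Cls} {L : ℕ} {q : Par} {Zσ Zε c' η₁ : ℝ} (hL : 2 ≤ L) (hS : SecW) (hT : TiltP)
    (hU : UnivJ Q q Zσ Zε L c' η₁) {R R₁ t : ℕ} (K : ℕ) (hR : q.R ≤ R) (ht : 1 ≤ t)
    (hR₁ : t + R₁ + 1 ≤ q.R) (hV : ∀ B, q.V B ≠ 0 → (0, 0) ∈ B → B ∈ potSets R₁)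
    (x1 : 1 / 4 ≤ q.x) (x2 : q.x ≤ 1 / 2) (hsm : q.Small 1) {J lam β : ℝ} (hr : Rel J lam β q)
    (n m N Λ₁ : ℕ) {Γ : ℝ} (hΓ : 1 ≤ Γ) : ∃ τ > 0, ∃ B : ℝ, ∀ ε > 0, ∃ J₀ : ℕ, ∀ J' ≥ J₀,
      ∀ (M : ℕ) [NeZero M] (Λ P : Finset Site) (T ρ H k : ℕ) (a : Site) (hs : Fin H → Site)
      (p : Fin k → Site) (e : Fin k → Fin 4) (u : Fin k → ℕ → Tor M × Fin 4 → ℝ)
      (ν : Fin k → ℕ → ℝ) (ε' : Finset (Fin H) → ℝ) (ς : Site → ℝ) (κ₀ κ : ℝ) (b b₁ b' : Config)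
      (x : Fin n → Site) (y : Fin m → Site) (j : Fin m → Fin 2),
      GD Q L J' Λ₁ Γ c' η₁ M (dig Λ P t) T ρ a hs (mkS M p e) u ν → n + H + 1 + m + k ≤ N →
      P.card ≤ N → IsSign ε' → IsSign ς → κ₀ ≠ 0 →
      Sel ((dig Λ P t).image (prj M)) a hs b' (mkS M p e) ε' ς κ₀ → (∀ v ∈ Λ, zd v 0 ≤ T) →
      (∀ z ∈ P, zd z 0 ≤ T) → MkG (dig Λ P t) κ ρ p e → MkB (dig Λ P t) b₁ b' (2 * R + 4) K p e →
      (∀ v, v ∉ Λ → b₁ v = b v) → (∀ z ∈ P, ∀ z' ∈ P, z ≠ z' → ρ < zd z z') →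
      (∀ z ∈ P, ∀ v, zd v z ≤ ρ → v ∉ dig Λ P t → b₁ v = b₁ z) → (∀ z ∈ P, ∀ i, ρ < zd (p i) z) →
      Spins (dig Λ P t) ρ (Sum.elim x y) → ∃ (f₀ f₁ : Finset (Fin m) → ℝ) (ζ ζ₁ : ℝ),
        UL.psi (f₀ ∅) (fun i => f₀ {i}) f₁ = (sc L J' : ℝ) ^ ((n : ℝ) / 8) * (sc L J' : ℝ) ^ m *
          lcor (gibbs J lam q.V β (some b) Λ) x y j ∧ |ζ| ≤ B ∧ τ ≤ ζ₁ ∧
        Ap f₀ f₁ (fS ((dig Λ P t).image (prj M)) a hs (mkS M p e) ε' ς y j (sc L J')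
            (∏ i, ν i J') par0 1 Fin.elim0)
          (fS ((dig Λ P t).image (prj M)) a hs (mkS M p e) ε' ς y j (sc L J') (∏ i, ν i J')
            par0 1 x) ζ (Zσ ^ n) Zε ε ∧
        Ap (fS ((dig Λ P t).image (prj M)) a hs (mkS M p e) ε' ς y j (sc L J') (∏ i, ν i J')
            q 1 Fin.elim0)
          (fS ((dig Λ P t).image (prj M)) a hs (mkS M p e) ε' ς y j (sc L J') (∏ i, ν i J') q 1 x)
          (fS ((dig Λ P t).image (prj M)) a hs (mkS M p e) ε' ς y j (sc L J') (∏ i, ν i J')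
            par0 1 Fin.elim0)
          (fS ((dig Λ P t).image (prj M)) a hs (mkS M p e) ε' ς y j (sc L J') (∏ i, ν i J')
            par0 1 x) ζ₁ (Zσ ^ n) Zε ε ∧
        (∀ s, |fS ((dig Λ P t).image (prj M)) a hs (mkS M p e) ε' ς y j (sc L J') (∏ i, ν i J')
            par0 1 Fin.elim0 s| ≤ B ∧ |fS ((dig Λ P t).image (prj M)) a hs (mkS M p e) ε' ς y j
              (sc L J') (∏ i, ν i J') par0 1 x s| ≤ B) ∧
        τ * |fS ((dig Λ P t).image (prj M)) a hs (mkS M p e) ε' ς y j (sc L J') (∏ i, ν i J')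
            q 1 Fin.elim0 ∅| ≤ |f₀ ∅| := by
  obtain ⟨K', C, hC, hS⟩ := hS R K t
  have q0 : 0 < q.x := by linarith
  obtain ⟨θ₁, hθ₁, h1⟩ := sideV hL hT q0 hU K'
  obtain ⟨B, h1⟩ := h1 C hC n m N Λ₁ Γ hΓ
  set θ : ℝ := min θ₁ 1 with hθ
  have θ0 : 0 < θ := by positivity
  have C1 : C⁻¹ ≤ 1 := inv_le_one_of_one_le₀ hC
  have θ1 : θ / C * C⁻¹ ≤ 1 := mul_le_one₀ ((div_le_self θ0.le hC).trans (min_le_right _ _))
    (by positivity) C1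
  refine ⟨min ((1 / 2) ^ N) (C⁻¹ ^ N * (θ / C * C⁻¹) ^ N), by positivity, B, fun ε hε => ?_⟩
  obtain ⟨J₁, h1⟩ := h1 ε hε
  refine ⟨max J₁ (K' + q.R), fun J' hJ M _ Λ P T ρ H k a hs p e u ν ε' ς κ₀ κ b b₁ b' x y j G hN
    hP hε' hς κ0 sel hΛ p1 mg mb b1 p2 b2 p3 h2 => ?_⟩
  have l1 : 8 * J' + 8 ≤ sc L J' := sc_ge hL
  have l2 : K' + q.R ≤ J' := le_of_max_le_right hJ
  have r1 := G.lo
  have r2 := G.le
  have r3 := G.eq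
  obtain ⟨O, O', lo, o1, lo', o2, hG⟩ := hS J lam β q R₁ hr hR (by omega) hV x1 x2 hsm M Λ P T k
    p e b b₁ b' hΛ p1 (by omega) (fun i => ⟨(mg.mk1 i).touch, (mg.mk1 i).rem⟩)
    (fun i i' h => lt_of_le_of_lt (by omega) (mg.sep i i' h)) mb b1
    (fun z hz z' hz' h => lt_of_le_of_lt (by omega) (p2 z hz z' hz' h))
    (fun z hz v hv => b2 z hz v (by omega)) fun z hz i => lt_of_le_of_lt (by omega) (p3 z hz i)
  have sO : ∀ i n, |θ / C * O i n - 0| ≤ θ₁ ∧ θ / C * C⁻¹ ≤ θ / C * O i n := fun i n => by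
    have t1 : 0 ≤ θ / C := by positivity
    have t2 := mul_le_mul_of_nonneg_left (o1 i n).2 t1
    have t3 := mul_le_mul_of_nonneg_left (o1 i n).1 t1
    rw [div_mul_cancel₀ _ (by positivity)] at t2
    rw [sub_zero, abs_of_nonneg (le_trans (by positivity) t3)]
    exact ⟨t2.trans (min_le_left _ _), t3⟩
  obtain ⟨ζ, ζ₁, a1, a2, a3, a4, a5⟩ := h1 J' (le_of_max_le_left hJ) M _ P T ρ H k (t + R₁ + 2) a
    hs _ u ν ε' ς (fun i n => θ / C * O i n) O' x y j G hN hε' hς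
    (fun z hz => ⟨p1 z hz, fun v hv h => absurd ((mem_dig.1 h).2 z hz) (by omega)⟩)
    (fun z hz z' hz' h => lt_of_le_of_lt (by omega) (p2 z hz z' hz' h)) hP (by omega) (by omega)
    lo' o2 (fun i n n' h => congrArg _ (lo i n n' h)) (fun i n => (sO i n).1) h2
  have hx' : ∀ i, x i ∈ dig Λ P t := fun i => h2.ins (Sum.inl i) _ (by simp [zd_self])
  have hy' : ∀ k, y k ∈ dig Λ P t ∧ y k + dir (j k) ∈ dig Λ P t := fun k =>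
    ⟨h2.ins (Sum.inr k) _ (by simp [zd_self]),
      h2.ins (Sum.inr k) _ ((zd_add_dir _ _).trans (by omega))⟩
  have hyI : ∀ i, yE M y j i ∈ (dig Λ P t).image (prj M) := fun i => mem_image_of_mem _ (hy' i).2
  have l0 : (0 : ℝ) < sc L J' := by exact_mod_cast (by omega : 0 < sc L J')
  have ν0 : 0 < ∏ i, ν i J' := prod_pos fun i _ => (G.dat.ch i).nu_pos le_rfl
  refine ⟨_, _, ζ, ζ₁, ?_, a1, (min_le_left _ _).trans a2, a3, a4, a5,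
    fW_ge (c := θ / C * C⁻¹) (c' := C⁻¹ ^ N) sel hyI ν0 q0.le (by positivity) (by positivity)
      (fun i n => (sO i n).2) (fun n => ?_) ((min_le_right _ _).trans ?_)⟩
  · rw [psi_fW l0 ν0, lcor_eqW sel hς κ0 (DH1.Zw_plus_pos G.holes.box (by omega) q0).ne'
      (fun F hF => ?_) hyI hx' hy']
    rw [sB_smul, sB_smul, mul_div_mul_left _ _ (by positivity)]
    exact hG F hF
  · refine (pow_le_pow_of_le_one (by positivity) C1 hP).trans ?_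
    rw [← prod_const]
    exact prod_le_prod (fun _ _ => by positivity) fun z _ => (o2 z n).1
  · exact mul_le_mul_of_nonneg_left (pow_le_pow_of_le_one (by positivity) θ1 (by omega))
      (by positivity)

theorem gapOf (hG : GapW) (N Λ₁ : ℕ) : ∃ Γ : ℝ, 1 ≤ Γ ∧ ∃ r₀ : ℕ, ∀ (M : ℕ) [NeZero M]
    (Λ : Finset Site) (T ρ l : ℕ), Rgh (Λ.image (prj M)) N (ρ - 1) → (∀ v ∈ Λ, zd v 0 ≤ T) →
    r₀ ≤ l → 1 ≤ l → 2 * l ≤ ρ → ρ ≤ T → T ≤ Λ₁ * l → M = 64 * T →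
    ∀ B, Str (pwI (Λ.image (prj M))) B (ρ - 1) → (∀ e, T + 1 < tdist e.1 0 → B e = 1) →
      ∀ φ, φ ⬝ᵥ φ ≤ (Γ * l) ^ 2 * ((Dm (pwI (Λ.image (prj M)) * B) *ᵥ φ) ⬝ᵥ
        (Dm (pwI (Λ.image (prj M)) * B) *ᵥ φ)) := by
  obtain ⟨Γ₀, hΓ₀, r₀, HG⟩ := hG N (Λ₁ + 1)
  refine ⟨Γ₀ * (Λ₁ + 1), one_le_mul_of_one_le_of_one_le hΓ₀ (by
    linarith [Nat.cast_nonneg (α := ℝ) Λ₁]), r₀,
    fun M _ Λ T ρ l h1 h2 h3 h4 h5 h6 h7 h8 B b1 b2 φ => ?_⟩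
  have e1 : (Λ₁ + 1) * l = Λ₁ * l + l := by ring
  have e2 : (Λ₁ + 1) * l ≤ (Λ₁ + 1) * (ρ - 1) := Nat.mul_le_mul_left _ (by omega)
  have := HG M (regOf M Λ false) B (T + 1) (ρ - 1) h1 b1
    (fun f hf => (K.in_le h2 f hf).trans (by omega)) b2 (by omega) (by omega) (by omega)
    (by omega) φ 0 (fun h => absurd h (by simp [regOf])) fun f hf => absurd rfl hf
  simp only [Pi.zero_apply, zero_smul, sum_const_zero, sub_zero, K.l2sq_univ'] at this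
  refine this.trans (mul_le_mul_of_nonneg_right (pow_le_pow_left₀ (by positivity) ?_ 2)
    (K.dot_nn _))
  have e3 : ((T + 1 : ℕ) : ℝ) ≤ (Λ₁ + 1) * l := by
    exact_mod_cast (by omega : T + 1 ≤ (Λ₁ + 1) * l)
  rw [mul_assoc]
  exact mul_le_mul_of_nonneg_left e3 (by linarith)

end Vale.Agent.P144Z.IVL
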