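import Vale.Agent.P144D.I.V.DefsL
import Vale.Agent.P144D.I.Lat.Main

/-!
Sums over sectors with insertions and a positive weight.
-/

namespace Vale.Agent.P144Z.IVL

open Finset P144 UL ILat

variable {M : ℕ} [NeZero M]

/-- The sum over the sectors with the weight `Ψ`. -/
noncomputable def mxW (q : Par) (I : Finset (Tor M)) {H : ℕ} (a : Site) (hs : Fin H → Site)
    (ε : Finset (Fin H) → ℝ) {k : ℕ} (s : Fin k → Tor M × Fin 4)
    (O : Fin k → (Tor M × Fin 2 → Bool) → ℝ) (Ψ : (Tor M × Fin 2 → Bool) → ℝ) {m : ℕ}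
    (y : Fin m → Site) (j : Fin m → Fin 2) {n : ℕ} (x : Fin n → Site) (t : Finset (Fin m)) : ℝ :=
  ∑ S, ε S * (ZJ q (pwI I * (spinG M a x * holeG M a hs S)) s O (fun c => Ψ c *
    ∏ i ∈ t, (sgn (c (yE M y j i, dE y j i)) - enC q 0 (pwI I) (yE M y j i) (dE y j i))) /
      Zw q (pwI I) 1)

/-- The sum over the sectors with the correction `v`. -/
noncomputable def mxV (q : Par) (v : Cor M) (I : Finset (Tor M)) {H : ℕ} (a : Site)
    (hs : Fin H → Site) (ε : Finset (Fin H) → ℝ) {k : ℕ} (s : Fin k → Tor M × Fin 4)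
    (O : Fin k → (Tor M × Fin 2 → Bool) → ℝ) {m : ℕ} (y : Fin m → Site) (j : Fin m → Fin 2) {n : ℕ}
    (x : Fin n → Site) (t : Finset (Fin m)) : ℝ :=
  ∑ S, ε S * mixJV q v (pwI I) (spinG M a x * holeG M a hs S) s O (fun i : t => yE M y j i)
    fun i : t => dE y j i

variable {q : Par} {I : Finset (Tor M)} {H k m n : ℕ} {a : Site} {hs : Fin H → Site}
  {b : Site → Bool} {s : Fin k → Tor M × Fin 4} {ε : Finset (Fin H) → ℝ} {ς : Site → ℝ} {κ₀ : ℝ}
  {O : Fin k → (Tor M × Fin 2 → Bool) → ℝ} {Ψ : (Tor M × Fin 2 → Bool) → ℝ} {y : Fin m → Site}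
  {j : Fin m → Fin 2}

theorem mxV_zero (x : Fin n → Site) (t : Finset (Fin m)) :
    mxV q 0 I a hs ε s O y j x t = mxJ q I a hs ε s O y j x t := by
  simp only [mxV, mxJ, mixJV, mixJ, Pi.zero_apply, sum_const_zero, Real.exp_zero, one_mul, ZwC_zero]

theorem mxJ_parR (R : ℕ) (x : Fin n → Site) (t : Finset (Fin m)) :
    mxJ (parR R) I a hs ε s O y j x t = mxJ par0 I a hs ε s O y j x t := by
  simp [mxJ, mixJ, ZJ, enC, ZwC, Zw, uint, parR, par0]

theorem mxW_eq (h : Sel I a hs b s ε ς κ₀) (hy : ∀ i, yE M y j i ∈ I) (x : Fin n → Site)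
    (t : Finset (Fin m)) : mxW q I a hs ε s O Ψ y j x t = κ₀ * (∏ i, ς (x i)) *
      sB q I b O (fun σ => ((∏ i, sp (per M σ (x i))) * ∏ i ∈ t, (sp (per M σ (y i)) *
        sp (per M σ (y i + dir (j i))) - enC q 0 (pwI I) (yE M y j i) (dE y j i))) *
          Ψ (nOf I σ)) / Zw q (pwI I) 1 := by
  unfold mxW sB
  simp only [← mul_div_assoc]
  rw [← sum_div, h]
  congr 2
  refine sum_congr rfl fun σ _ => ?_
  split_ifs
  · have e : ∀ i, sgn (nOf I σ (yE M y j i, dE y j i)) =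
        sp (per M σ (y i)) * sp (per M σ (y i + dir (j i))) := fun i => by
      rw [show nOf I σ (yE M y j i, dE y j i) = dom σ (yE M y j i, dE y j i) by simp [nOf, hy i],
        yE, dE, sgn_dom]
    simp only [e]
    change (∏ i, sp (per M σ (x i))) * _ * _ = _
    ring
  · rfl

theorem mxW_empty (h : Sel I a hs b s ε ς κ₀) (hy : ∀ i, yE M y j i ∈ I) :
    mxW q I a hs ε s O Ψ y j Fin.elim0 ∅ =
      κ₀ * sB q I b O (fun σ => Ψ (nOf I σ)) / Zw q (pwI I) 1 := by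
  rw [mxW_eq h hy]
  simp only [univ_eq_empty, prod_empty, mul_one, one_mul]

theorem sB_geW {c c' : ℝ} (hx : 0 ≤ q.x) (hc : 0 ≤ c) (hc' : 0 ≤ c') (h : ∀ i n, c ≤ O i n)
    (h' : ∀ n, c' ≤ Ψ n) :
    c' * (c ^ k * sB q I b (1 : Fin k → _) 1) ≤ sB q I b O fun σ => Ψ (nOf I σ) := by
  refine (mul_le_mul_of_nonneg_left (sB_ge (I := I) (b := b) hx hc h).2 hc').trans ?_
  unfold sB
  rw [mul_sum]
  refine sum_le_sum fun σ _ => ?_
  split_ifs
  · rw [Pi.one_apply, one_mul]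
    refine mul_le_mul_of_nonneg_right (h' _) (mul_nonneg (mul_nonneg (H2D.wt_nonneg (fun e => ?_)
      hx _) (Real.exp_pos _).le) (prod_nonneg fun i _ => hc.trans (h i _)))
    rcases IConv.pwI_val I e with h | h <;> simp [h]
  · simp

theorem lcor_eqW {J lam β : ℝ} {V : Finset Site → ℝ} {b₀ : Config} {Λ Λ' : Finset Site}
    (h : Sel I a hs b s ε ς κ₀) (hς : IsSign ς) (hκ : κ₀ ≠ 0) (hZ : Zw q (pwI I) 1 ≠ 0)
    (hG : ∀ F : Config → ℝ, (∀ σ σ', (∀ v ∈ Λ', σ v = σ' v) → F σ = F σ') →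
      gibbs J lam V β (some b₀) Λ F = sB q I b O (fun σ => F (per M σ) * Ψ (nOf I σ)) /
        sB q I b O fun σ => Ψ (nOf I σ))
    (hI : ∀ i, yE M y j i ∈ I) {x : Fin n → Site} (hx : ∀ i, x i ∈ Λ')
    (hy : ∀ i, y i ∈ Λ' ∧ y i + dir (j i) ∈ Λ') :
    lcor (gibbs J lam V β (some b₀) Λ) x y j =
      UL.psi (mxW q I a hs ε s O Ψ y j Fin.elim0 ∅)
        (fun i => mxW q I a hs ε s O Ψ y j Fin.elim0 {i})
        fun t => (∏ i, ς (x i)) * mxW q I a hs ε s O Ψ y j x t := by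
  have key : ∀ {n : ℕ} (x : Fin n → Site), (∀ i, x i ∈ Λ') → ∀ t : Finset (Fin m),
      gibbs J lam V β (some b₀) Λ (fun σ => (∏ i, sp (σ (x i))) *
        ∏ k ∈ t, (sp (σ (y k)) * sp (σ (y k + dir (j k))) -
          enC q 0 (pwI I) (yE M y j k) (dE y j k))) =
      (∏ i, ς (x i)) * mxW q I a hs ε s O Ψ y j x t / mxW q I a hs ε s O Ψ y j Fin.elim0 ∅ := by
    intro n x hx t
    have h2 : (∏ i, ς (x i)) * ∏ i, ς (x i) = 1 := by
      rw [← prod_mul_distrib]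
      exact prod_eq_one fun i _ => by rcases hς (x i) with e | e <;> simp [e]
    rw [hG _ fun σ σ' e => by
      simp only [fun i => e _ (hx i), fun k => e _ (hy k).1, fun k => e _ (hy k).2],
      mxW_eq h hI, mxW_empty h hI, ← mul_div_assoc, div_div_div_cancel_right₀ hZ, mul_comm κ₀,
      ← mul_assoc, ← mul_assoc, h2, one_mul, mul_div_mul_left _ _ hκ]
  refine recentre _ Λ _ (fun k σ => sp (σ (y k)) * sp (σ (y k + dir (j k)))) _ (fun k => ?_)
    (key x hx)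
  simpa only [univ_eq_empty, prod_empty, one_mul, prod_singleton] using
    key Fin.elim0 (fun i => i.elim0) {k}

theorem ZJ_div (A : Gauge M) (Φ : (Tor M × Fin 2 → Bool) → ℝ) (z : ℝ) :
    ZJ q A s O Φ / z = ZJ q A s O fun c => Φ c / z := by
  simp only [ZJ, sum_div, mul_div_assoc]

theorem ZJ_lin {β : Type} (A : Gauge M) (T : Finset β) (g : β → ℝ)
    (Φ : β → (Tor M × Fin 2 → Bool) → ℝ) :
    ZJ q A s O (fun c => ∑ U ∈ T, g U * Φ U c) = ∑ U ∈ T, g U * ZJ q A s O (Φ U) := by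
  simp only [ZJ, mul_sum]
  rw [sum_comm]
  exact sum_congr rfl fun _ _ => sum_congr rfl fun _ _ => by ring

theorem mxW_tilt {β : Type} (A : Finset β) {u : β → Cor M} {c : β → ℝ}
    (hΨ : ∀ n, Ψ n / Zw q (pwI I) 1 =
      ∑ U ∈ A, c U * (Real.exp (∑ X, u U X n) / ZwC q (u U) (pwI I) 1))
    (x : Fin n → Site) (t : Finset (Fin m)) : mxW q I a hs ε s O Ψ y j x t =
      ∑ U ∈ A, c U * ∑ t' ∈ t.powerset, (∏ i ∈ t \ t', (enC q (u U) (pwI I) (yE M y j i)
        (dE y j i) - enC q 0 (pwI I) (yE M y j i) (dE y j i))) *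
          mxV q (u U) I a hs ε s O y j x t' := by
  have e : ∀ (U : β) (w : Tor M × Fin 2 → Bool),
      ∏ i ∈ t, (sgn (w (yE M y j i, dE y j i)) - enC q 0 (pwI I) (yE M y j i) (dE y j i)) =
      ∑ t' ∈ t.powerset, (∏ i : t', (sgn (w (yE M y j i, dE y j i)) -
        enC q (u U) (pwI I) (yE M y j i) (dE y j i))) * ∏ i ∈ t \ t', (enC q (u U) (pwI I)
          (yE M y j i) (dE y j i) - enC q 0 (pwI I) (yE M y j i) (dE y j i)) := fun U w => by
    simp only [prod_coe_sort _ fun i => sgn (w (yE M y j i, dE y j i)) -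
      enC q (u U) (pwI I) (yE M y j i) (dE y j i)]
    rw [← prod_add]
    exact prod_congr rfl fun i _ => by ring
  have key : ∀ B : Gauge M, ZJ q B s O (fun c => Ψ c * ∏ i ∈ t, (sgn (c (yE M y j i, dE y j i)) -
      enC q 0 (pwI I) (yE M y j i) (dE y j i))) / Zw q (pwI I) 1 =
      ∑ U ∈ A, c U * ∑ t' ∈ t.powerset, (∏ i ∈ t \ t', (enC q (u U) (pwI I) (yE M y j i)
        (dE y j i) - enC q 0 (pwI I) (yE M y j i) (dE y j i))) *
        (ZJ q B s O (fun c => Real.exp (∑ X, u U X c) * ∏ i : t', (sgn (c (yE M y j i, dE y j i)) -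
          enC q (u U) (pwI I) (yE M y j i) (dE y j i))) / ZwC q (u U) (pwI I) 1) := fun B => by
    simp only [ZJ_div, ← ZJ_lin]
    congr 1
    funext w
    rw [mul_div_right_comm, hΨ, sum_mul]
    refine sum_congr rfl fun U _ => ?_
    rw [e U, mul_assoc, mul_sum]
    exact congrArg _ (sum_congr rfl fun _ _ => by ring)
  unfold mxW mxV mixJV
  simp only [key, mul_sum]
  rw [sum_comm]
  refine sum_congr rfl fun U _ => ?_
  rw [sum_comm]
  exact sum_congr rfl fun _ _ => sum_congr rfl fun _ _ => by ring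

end Vale.Agent.P144Z.IVL
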