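import Vale.Agent.P144D.I.V.LCore

/-!
The weighted moments are those of the nearest-neighbour model up to one factor.
-/

namespace Vale.Agent.P144Z.IVL

open Finset Matrix P144 UL ILat

theorem fin' (m : ℕ) (B a b a' b' : ℝ) {c τ ε : ℝ} (hc : 0 < c) (hτ : 0 < τ) (hτ1 : τ ≤ 1)
    (hε : 0 < ε) : ∃ δ > 0, ∀ (f₀ f₁ h₀ h₁ p₀ p₁ g₀ g₁ : Finset (Fin m) → ℝ) (ζ ζ₁ ζ₂ ζ₃ : ℝ),
      Ap f₀ f₁ g₀ g₁ ζ a b δ → Ap h₀ h₁ g₀ g₁ ζ₁ a b δ → Ap p₀ p₁ g₀ g₁ ζ₂ a' b' δ →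
      Ap g₀ g₁ g₀ g₁ ζ₃ a' b' δ → τ ≤ ζ₁ → τ ≤ ζ₃ → |ζ₂| ≤ B → c ≤ |g₀ ∅| →
      (∀ t, |g₀ t| ≤ B ∧ |g₁ t| ≤ B) → τ * |h₀ ∅| ≤ |f₀ ∅| → τ * |g₀ ∅| ≤ |p₀ ∅| →
        |UL.psi (f₀ ∅) (fun i => f₀ {i}) f₁ - a * b ^ m * UL.psi (p₀ ∅) (fun i => p₀ {i}) p₁| ≤ ε := by
  set σ := τ / (|B| + 1) with hσ
  have B1 : 1 ≤ |B| + 1 := by linarith [abs_nonneg B]
  have s0 : 0 < σ := by positivity
  have s1 : σ ≤ 1 := (div_le_self hτ.le B1).trans hτ1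
  have s2 : σ * τ ≤ τ := mul_le_of_le_one_left hτ.le s1
  obtain ⟨δ, hδ, h⟩ := fin m B a b a' b' hc (mul_pos s0 hτ) (s2.trans hτ1) hε
  refine ⟨δ, hδ, fun f₀ f₁ h₀ h₁ p₀ p₁ g₀ g₁ ζ ζ₁ ζ₂ ζ₃ a1 a2 a3 a4 a5 a6 a7 a8 a9 b1 b2 => ?_⟩
  have k : ∀ u v : ℝ, |u - ζ₂ * v| ≤ δ → |σ * u - σ * ζ₂ * v| ≤ δ := fun u v e => by
    rw [mul_assoc, ← mul_sub, abs_mul, abs_of_pos s0]
    exact (mul_le_of_le_one_left (abs_nonneg _) s1).trans e
  have := h f₀ f₁ h₀ h₁ (fun t => σ * p₀ t) (fun t => σ * p₁ t) g₀ g₁ ζ ζ₁ (σ * ζ₂) ζ₃ a1 a2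
    (fun t => ⟨k _ _ (a3 t).1, k _ _ (a3 t).2⟩) a4 (s2.trans a5) (s2.trans a6) (by
      rw [abs_mul, abs_of_pos s0, hσ, div_mul_eq_mul_div, div_le_iff₀ (by positivity)]
      exact mul_le_mul a6 (by linarith [le_abs_self B]) (abs_nonneg _) (by linarith)) a8 a9
    ((mul_le_mul_of_nonneg_right s2 (abs_nonneg _)).trans b1) (by
      rw [abs_mul, abs_of_pos s0, mul_assoc]
      exact mul_le_mul_of_nonneg_left b2 s0.le)
  rwa [psi_hom s0.ne'] at this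

section

variable {M : ℕ} [NeZero M] {I : Finset (Tor M)} {H k m : ℕ} {a : Site} {hs : Fin H → Site}
  {s : Fin k → Tor M × Fin 4} {ε : Finset (Fin H) → ℝ} {ς : Site → ℝ} {y : Fin m → Site}
  {j : Fin m → Fin 2} {l ν : ℝ}

variable (I a hs ε s ς y j l ν) in
/-- The rescaled weighted moments. -/
noncomputable def fW (q : Par) (O : Fin k → (Tor M × Fin 2 → Bool) → ℝ)
    (Ψ : (Tor M × Fin 2 → Bool) → ℝ) {n : ℕ} (x : Fin n → Site) (t : Finset (Fin m)) : ℝ :=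
  (wS l ν n t.card)⁻¹ * ((∏ i, ς (x i)) * mxW q I a hs ε s O Ψ y j x t)

theorem psi_fW (hl : 0 < l) (hν : 0 < ν) (q : Par) (O : Fin k → (Tor M × Fin 2 → Bool) → ℝ)
    (Ψ : (Tor M × Fin 2 → Bool) → ℝ) {n : ℕ} (x : Fin n → Site) :
    UL.psi (fW I a hs s ε ς y j l ν q O Ψ Fin.elim0 ∅)
      (fun i => fW I a hs s ε ς y j l ν q O Ψ Fin.elim0 {i}) (fW I a hs s ε ς y j l ν q O Ψ x) =
      l ^ ((n : ℝ) / 8) * l ^ m * UL.psi (mxW q I a hs ε s O Ψ y j Fin.elim0 ∅)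
        (fun i => mxW q I a hs ε s O Ψ y j Fin.elim0 {i})
        fun t => (∏ i, ς (x i)) * mxW q I a hs ε s O Ψ y j x t := by
  rw [← psi_scale, ← psi_hom (inv_ne_zero hν.ne') (mxW q I a hs ε s O Ψ y j Fin.elim0 ∅)]
  congr 1
  · simp [fW, wS]
  · funext i
    simp only [fW, wS, card_singleton, pow_one, Nat.cast_zero, zero_div, neg_zero, Real.rpow_zero,
      univ_eq_empty, prod_empty]
    field_simp
  · funext t
    simp only [fW, wS, Real.rpow_neg hl.le]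
    field_simp

theorem fW_ge {b : Site → Bool} {κ₀ : ℝ} (h : Sel I a hs b s ε ς κ₀) (hy : ∀ i, yE M y j i ∈ I)
    (hν : 0 < ν) {q : Par} (hx : 0 ≤ q.x) {O : Fin k → (Tor M × Fin 2 → Bool) → ℝ}
    {Ψ : (Tor M × Fin 2 → Bool) → ℝ} {c c' τ : ℝ} (hc : 0 ≤ c) (hc' : 0 ≤ c')
    (hO : ∀ i n, c ≤ O i n) (hΨ : ∀ n, c' ≤ Ψ n) (hτ : τ ≤ c' * c ^ k) :
    τ * |fS I a hs s ε ς y j l ν q 1 Fin.elim0 ∅| ≤
      |fW I a hs s ε ς y j l ν q O Ψ Fin.elim0 ∅| := by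
  have h1 := (sB_ge (I := I) (b := b) hx hc hO).1
  have h2 := sB_geW (I := I) (b := b) hx hc hc' hO hΨ
  have e : |fW I a hs s ε ς y j l ν q O Ψ Fin.elim0 ∅| =
      |κ₀| / (ν * |Zw q (pwI I) 1|) * |sB q I b O fun σ => Ψ (nOf I σ)| := by
    simp only [fW, wS, mxW_empty h hy, card_empty, pow_zero, Nat.cast_zero, zero_div, neg_zero,
      Real.rpow_zero, univ_eq_empty, prod_empty, div_one, one_mul, abs_mul, abs_div, abs_inv,
      abs_of_pos hν]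
    ring
  rw [fS_empty h hy hν, e, abs_of_nonneg h1, mul_left_comm]
  refine mul_le_mul_of_nonneg_left ((mul_le_mul_of_nonneg_right hτ h1).trans
    (le_trans (le_of_eq (mul_assoc _ _ _)) (h2.trans (le_abs_self _)))) (by positivity)

theorem fW_tilt {q : Par} {O : Fin k → (Tor M × Fin 2 → Bool) → ℝ}
    {Ψ : (Tor M × Fin 2 → Bool) → ℝ} {β : Type} (A : Finset β) {u : β → Cor M} {c : β → ℝ}
    (hΨ : ∀ n, Ψ n / Zw q (pwI I) 1 =
      ∑ U ∈ A, c U * (Real.exp (∑ X, u U X n) / ZwC q (u U) (pwI I) 1)) {n : ℕ}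
    (x : Fin n → Site) (t : Finset (Fin m)) : fW I a hs s ε ς y j l ν q O Ψ x t =
      ∑ U ∈ A, c U * ∑ t' ∈ t.powerset, (∏ i ∈ t \ t', l * (enC q (u U) (pwI I) (yE M y j i)
        (dE y j i) - enC q 0 (pwI I) (yE M y j i) (dE y j i))) * ((wS l ν n t'.card)⁻¹ *
          ((∏ i, ς (x i)) * mxV q (u U) I a hs ε s O y j x t')) := by
  rw [fW, mxW_tilt A hΨ]
  simp only [mul_sum]
  refine sum_congr rfl fun U _ => sum_congr rfl fun t' ht => ?_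
  have e : (wS l ν n t.card)⁻¹ = l ^ (t \ t').card * (wS l ν n t'.card)⁻¹ := by
    rw [← card_sdiff_add_card_eq_card (mem_powerset.1 ht)]
    simp only [wS, mul_inv, one_div, inv_inv, pow_add]
    ring
  rw [prod_mul_distrib, prod_const, e]
  ring

end

theorem sideV {Q : Cls} {L : ℕ} {q : Par} {Zσ Zε c' η₁ : ℝ} (hL : 2 ≤ L) (hT : TiltP)
    (hq : 0 < q.x) (hU : UnivJ Q q Zσ Zε L c' η₁) (K : ℕ) : ∃ θ > 0, ∀ C : ℝ, 1 ≤ C →
    ∀ (n m N Λ₁ : ℕ) (Γ : ℝ), 1 ≤ Γ → ∃ B : ℝ, ∀ ε > 0, ∃ J₀ : ℕ, ∀ J ≥ J₀, ∀ (M : ℕ) [NeZero M]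
      (Λ P : Finset Site) (T ρ H k K₁ : ℕ) (a : Site) (hs : Fin H → Site)
      (s : Fin k → Tor M × Fin 4) (u : Fin k → ℕ → Tor M × Fin 4 → ℝ) (ν : Fin k → ℕ → ℝ)
      (e : Finset (Fin H) → ℝ) (ς : Site → ℝ) (O : Fin k → (Tor M × Fin 2 → Bool) → ℝ)
      (O' : Site → (Tor M × Fin 2 → Bool) → ℝ) (x : Fin n → Site) (y : Fin m → Site)
      (j : Fin m → Fin 2), GD Q L J Λ₁ Γ c' η₁ M Λ T ρ a hs s u ν → n + H + 1 + m + k ≤ N →
      IsSign e → IsSign ς → (∀ p ∈ P, zd p 0 ≤ T ∧ ∀ v, zd v p ≤ 1 → v ∉ Λ) →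
      (∀ p ∈ P, ∀ p' ∈ P, p ≠ p' → 2 * K₁ < zd p p') → P.card ≤ N → K₁ ≤ q.R + 1 →
      q.R + 1 ≤ T → LocE P K₁ O' → (∀ p n, C⁻¹ ≤ O' p n ∧ O' p n ≤ C) → LocO s K O →
      (∀ i n, |O i n - 0| ≤ θ) → Spins Λ ρ (Sum.elim x y) → ∃ ζ ζ₁ : ℝ, |ζ| ≤ B ∧ (1 / 2) ^ N ≤ ζ₁ ∧
        Ap (fW (Λ.image (prj M)) a hs s e ς y j (sc L J) (∏ i, ν i J) q O
            (fun n => ∏ p ∈ P, O' p n) Fin.elim0)
          (fW (Λ.image (prj M)) a hs s e ς y j (sc L J) (∏ i, ν i J) q O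
            (fun n => ∏ p ∈ P, O' p n) x)
          (fS (Λ.image (prj M)) a hs s e ς y j (sc L J) (∏ i, ν i J) par0 1 Fin.elim0)
          (fS (Λ.image (prj M)) a hs s e ς y j (sc L J) (∏ i, ν i J) par0 1 x) ζ (Zσ ^ n) Zε ε ∧
        Ap (fS (Λ.image (prj M)) a hs s e ς y j (sc L J) (∏ i, ν i J) q 1 Fin.elim0)
          (fS (Λ.image (prj M)) a hs s e ς y j (sc L J) (∏ i, ν i J) q 1 x)
          (fS (Λ.image (prj M)) a hs s e ς y j (sc L J) (∏ i, ν i J) par0 1 Fin.elim0)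
          (fS (Λ.image (prj M)) a hs s e ς y j (sc L J) (∏ i, ν i J) par0 1 x) ζ₁ (Zσ ^ n) Zε ε ∧
        ∀ t, |fS (Λ.image (prj M)) a hs s e ς y j (sc L J) (∏ i, ν i J) par0 1 Fin.elim0 t| ≤ B ∧
          |fS (Λ.image (prj M)) a hs s e ς y j (sc L J) (∏ i, ν i J) par0 1 x t| ≤ B := by
  obtain ⟨γ, δ, hγ, hδ, hM, hE⟩ := hU
  obtain ⟨θ, hθ, hc⟩ := coreV hL hM K
  refine ⟨θ, hθ, fun C hC n m N Λ₁ Γ hΓ => ?_⟩
  obtain ⟨B, hc⟩ := hc n m N Λ₁ Γ hΓ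
  obtain ⟨BT, hT⟩ := hT C δ N hC hδ
  set z : ℝ := (|Zσ| + 1) ^ n * (|Zε| + 1) ^ m with hz
  have a1 : 1 ≤ |Zσ| + 1 := by linarith [abs_nonneg Zσ]
  have a2 : 1 ≤ |Zε| + 1 := by linarith [abs_nonneg Zε]
  have a6 : ∀ i ≤ n, ∀ t : Finset (Fin m), |Zσ ^ i * Zε ^ t.card| ≤ z := fun i hi t => by
    rw [abs_mul, abs_pow, abs_pow]
    exact mul_le_mul ((pow_le_pow_left₀ (abs_nonneg _) (by linarith) i).trans
      (pow_le_pow_right₀ a1 hi)) ((pow_le_pow_left₀ (abs_nonneg _) (by linarith) _).trans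
      (pow_le_pow_right₀ a2 (by simpa using card_le_univ t))) (by positivity) (by positivity)
  set A : ℝ := 1 + z * |B| with hA
  set D : ℝ := (|BT| + 1) * (1 + 2 ^ m * A) with hD
  have A0 : 0 < A := by positivity
  have D1 : 1 ≤ D := one_le_mul_of_one_le_of_one_le (by linarith [abs_nonneg BT])
    (by linarith [(by positivity : 0 ≤ 2 ^ m * A)])
  refine ⟨|B| + |BT|, fun ε hε => ?_⟩
  set ε' := min (ε / D) 1 with hε'
  have e0 : 0 < ε' := by positivity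
  have e1 : ε' ≤ 1 := min_le_right _ _
  have e2 : D * ε' ≤ ε := by
    rw [← le_div_iff₀' (by positivity)]
    exact min_le_left _ _
  obtain ⟨J₁, hc⟩ := hc ε' e0
  obtain ⟨J₂, hE⟩ := enV (c' := c') (η₁ := η₁) hL hE hγ hδ.le m N Λ₁ hΓ ε' e0
  refine ⟨max J₁ J₂, fun J hJ M _ Λ P T ρ H k K₁ a hs s u ν e ς O O' x y j G hN he hς p1 p2 p3 p4
    p5 p6 p7 hO hθ' h2 => ?_⟩
  have hs0 : Spins Λ ρ (Sum.elim (Fin.elim0 : Fin 0 → Site) y) := by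
    have := h2.comp (f := Sum.map (Fin.elim0 : Fin 0 → Fin n) id)
      (Function.Injective.sumMap (fun i => i.elim0) Function.injective_id)
    have e : x ∘ (Fin.elim0 : Fin 0 → Fin n) = Fin.elim0 := funext fun i => i.elim0
    rwa [Sum.elim_comp_map, e, Function.comp_id] at this
  have l1 : 8 * J + 8 ≤ sc L J := sc_ge hL
  have l0 : (0 : ℝ) < sc L J := by exact_mod_cast (by omega : 0 < sc L J)
  have r1 := G.lo
  have r2 := G.le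
  have r3 := G.eq
  obtain ⟨w, c, w1, w2, w3⟩ := hT q hq M Λ P T K₁ O' G.holes.box p1 p2 p3 p4 (by omega) p6 p7
  replace hc := hc J (le_of_max_le_left hJ) M Λ T ρ H k a hs s u ν e ς G hN he hς
  replace hE := fun U => hE J (le_of_max_le_right hJ) M Λ T ρ H k a hs s u ν G (by omega) (w U)
    (w1 U).1 (w1 U).2.1 (w1 U).2.2 y j hs0
  choose zz z1 z2 using fun U => hc (w U) 0 O (w1 U).1 (w1 U).2.1 (w1 U).2.2 hO (by simp) hθ'
  obtain ⟨z₁, z3, z4⟩ := hc 0 1 1 (Cor.ok_zero _) (fun _ _ _ => rfl) (le_zero _ hδ.le)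
    (fun _ _ _ _ => rfl) (by simp) fun _ _ => by simpa using hθ.le
  have z5 : ∀ U, |∏ i, zz U i| ≤ 1 := fun U => by
    rw [abs_prod]
    exact prod_le_one (fun _ _ => abs_nonneg _) fun i _ => by
      have := z1 U i
      rw [sub_zero] at this
      linarith
  have key : ∀ n' ≤ n, ∀ x : Fin n' → Site, Spins Λ ρ (Sum.elim x y) → ∀ t,
      |fW (Λ.image (prj M)) a hs s e ς y j (sc L J) (∏ i, ν i J) q O (fun n => ∏ p ∈ P, O' p n)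
        x t - (∑ U ∈ P.powerset, c U * ∏ i, zz U i) * (Zσ ^ n' * Zε ^ t.card *
          fS (Λ.image (prj M)) a hs s e ς y j (sc L J) (∏ i, ν i J) par0 1 x t)| ≤ ε := by
    intro n' hn x hx t
    rw [fW_tilt _ w3, sum_mul, ← sum_sub_distrib]
    refine (abs_sum_le_sum_abs _ _).trans ((sum_le_sum fun U _ =>
      (?_ : _ ≤ |c U| * (ε' + 2 ^ m * (ε' * A)))).trans ?_)
    · rw [mul_assoc, ← mul_sub, abs_mul]
      refine mul_le_mul_of_nonneg_left (tilt_est t e0.le e1 (hE U) (fun t' => ?_)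
        (z2 U n' hn x y j hx t).1) (abs_nonneg _)
      obtain ⟨k1, k2⟩ := z2 U n' hn x y j hx t'
      refine (abs_sub_abs_le_abs_sub _ _ |>.trans k1 |> sub_le_iff_le_add.1).trans
        (add_le_add e1 ?_)
      rw [abs_mul, abs_mul]
      exact (mul_le_of_le_one_left (by positivity) (z5 U)).trans (mul_le_mul (a6 n' hn t')
        (k2.trans (le_abs_self B)) (abs_nonneg _) (by positivity))
    · rw [← sum_mul]
      refine le_trans (mul_le_mul_of_nonneg_right (w2.trans ((le_abs_self BT).trans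
        (le_add_of_nonneg_right zero_le_one))) (by positivity)) (le_trans (le_of_eq ?_) e2)
      rw [hD]
      ring
  have e3 : ε' ≤ ε := (le_mul_of_one_le_left e0.le D1).trans e2
  simp only [mxV_zero] at z4
  refine ⟨_, ∏ i, z₁ i, ?_, (prod_z (by omega) z3 (z1 ∅)).1, fun t => ⟨?_, key n le_rfl x h2 t⟩,
    fun t => ⟨?_, (z4 n le_rfl x y j h2 t).1.trans e3⟩, fun t => ⟨?_, ?_⟩⟩
  · refine (abs_sum_le_sum_abs _ _).trans ((sum_le_sum fun U _ => (?_ : _ ≤ |c U|)).trans ?_)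
    · rw [abs_mul]
      exact mul_le_of_le_one_right (abs_nonneg _) (z5 U)
    · linarith [le_abs_self BT, abs_nonneg B]
  · simpa only [pow_zero, one_mul] using key 0 (Nat.zero_le _) _ hs0 t
  · have h := (z4 0 (Nat.zero_le _) _ y j hs0 t).1.trans e3
    simp only [pow_zero, one_mul] at h
    exact h
  · linarith [(z4 0 (Nat.zero_le _) _ y j hs0 t).2, le_abs_self B, abs_nonneg BT]
  · linarith [(z4 n le_rfl _ y j h2 t).2, le_abs_self B, abs_nonneg BT]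

end Vale.Agent.P144Z.IVL
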